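import Vale.Agent.P015.R2.H731.Fin
import Mathlib.Combinatorics.Additive.Energy

/-! Glue: the energy step and the progression theorem give the progression step. -/

namespace Vale.Agent.P015.R2.H731

open Finset Vale.Agent.P015 Vale.Agent.P015.Cx Filter Topology

/-- The energy step (module M3, A). -/
def EnergyStepC (C D : ℝ) : Prop :=
  ∃ k₀ : ℕ, ∀ k : ℕ, k₀ ≤ k → ∀ g : ℕ → GaussianInt,
    (∀ a ≤ k, ∀ b ≤ k, g a = g b → a = b) →
    (∀ a b, a ≤ b → b ≤ k → ((g b - g a).norm : ℝ) ≤ (D * ((b - a : ℕ) : ℝ)) ^ 2) →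
    ∀ R : ℝ, Real.log k ≤ R → R ^ C ≤ k →
    (∀ p ∈ primesMod 0 k, ∀ b : Bool, ((disp g 0 k).image (phi p (root p b))).card < p) →
    ∑ p ∈ primesMod 0 k, ∑ b : Bool,
      Real.log p / ((p : ℝ) - ((disp g 0 k).image (phi p (root p b))).card) ≤ R →
    ∃ (W : Finset GaussianInt) (z : GaussianInt) (K : ℕ), W ⊆ disp g 0 k ∧
      (∀ w ∈ W, |(w - z).re| ≤ K ∧ |(w - z).im| ≤ K) ∧ 1 ≤ K ∧ K ≤ k ∧
      (k : ℝ) ≤ (W.card : ℝ) ^ C ∧ (K : ℝ) ≤ R ^ C * W.card ∧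
      (W.card : ℝ) ^ 3 ≤ R ^ C * (Finset.addEnergy W W : ℝ)

/-- The progression theorem (modules M1, M2). -/
def EnergyAP : Prop :=
  ∃ C : ℝ, 1 ≤ C ∧ ∀ (W : Finset (ℤ × ℤ)) (K : ℕ) (L : ℝ) (J : ℕ), 2 ≤ L → 1 ≤ K →
    (∀ w ∈ W, |w.1| ≤ K ∧ |w.2| ≤ K) → (K : ℝ) ≤ L * W.card →
    (W.card : ℝ) ^ 3 ≤ L * (Finset.addEnergy W W : ℝ) → 1 ≤ J →
    Real.log J * (Real.log L) ^ 4 * C + C * (Real.log L) ^ 5 ≤ Real.log W.card →
    ∃ x v : ℤ × ℤ, v ≠ 0 ∧ |(v.1 : ℝ)| ≤ C * K ∧ |(v.2 : ℝ)| ≤ C * K ∧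
      (J : ℝ) ≤ L ^ C * (((Finset.range J).filter (fun j => x + j • v ∈ W)).card : ℝ)

/-- coordinates relative to `z` -/
def co (z w : GaussianInt) : ℤ × ℤ := ((w - z).re, (w - z).im)

theorem co_injective (z : GaussianInt) : Function.Injective (co z) := by
  intro a b h
  simp only [co, Prod.mk.injEq] at h
  have h1 : a - z = b - z := Zsqrtd.ext_iff.2 h
  simpa using h1

theorem co_energy (z : GaussianInt) (W : Finset GaussianInt) :
    Finset.addEnergy (W.image (co z)) (W.image (co z)) = Finset.addEnergy W W := by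
  unfold Finset.addEnergy
  symm
  refine Finset.card_bij (fun x _ => ((co z x.1.1, co z x.1.2), (co z x.2.1, co z x.2.2))) ?_ ?_ ?_
  · rintro ⟨⟨a, b⟩, c, d⟩ h
    simp only [mem_filter, mem_product] at h ⊢
    refine ⟨⟨⟨mem_image_of_mem _ h.1.1.1, mem_image_of_mem _ h.1.1.2⟩,
      mem_image_of_mem _ h.1.2.1, mem_image_of_mem _ h.1.2.2⟩, ?_⟩
    have h1 := Zsqrtd.ext_iff.1 h.2
    simp only [Zsqrtd.re_add, Zsqrtd.im_add] at h1
    simp only [co, Prod.mk_add_mk, Prod.mk.injEq, Zsqrtd.re_sub, Zsqrtd.im_sub]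
    constructor <;> linarith [h1.1, h1.2]
  · rintro ⟨⟨a, b⟩, c, d⟩ _ ⟨⟨a', b'⟩, c', d'⟩ _ h
    simp only [Prod.mk.injEq] at h
    rw [co_injective z h.1.1, co_injective z h.1.2, co_injective z h.2.1, co_injective z h.2.2]
  · rintro ⟨⟨a, b⟩, c, d⟩ h
    simp only [mem_filter, mem_product, mem_image] at h
    obtain ⟨⟨⟨⟨a', ha', rfl⟩, b', hb', rfl⟩, ⟨c', hc', rfl⟩, d', hd', rfl⟩, h2⟩ := h
    refine ⟨⟨⟨a', b'⟩, c', d'⟩, ?_, rfl⟩
    simp only [mem_filter, mem_product]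
    refine ⟨⟨⟨ha', hb'⟩, hc', hd'⟩, ?_⟩
    simp only [co, Prod.mk_add_mk, Prod.mk.injEq, Zsqrtd.re_sub, Zsqrtd.im_sub] at h2
    rw [Zsqrtd.ext_iff]
    simp only [Zsqrtd.re_add, Zsqrtd.im_add]
    constructor <;> linarith [h2.1, h2.2]

theorem num_cond {C₁ C₂ C l q w lj : ℝ} (hC₁ : 1 ≤ C₁) (hC₂ : 1 ≤ C₂)
    (hC : 3 * C₂ * C₁ ^ 6 ≤ C) (hl1 : 1 ≤ l) (hq0 : 0 ≤ q) (hCl : C * l ^ 5 ≤ q)
    (hlj : lj ≤ 1 + q / (C * l ^ 4)) (hqw : q ≤ C₁ * w) :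
    lj * (C₁ * l) ^ 4 * C₂ + C₂ * (C₁ * l) ^ 5 ≤ w := by
  have hl0 : 0 < l := by linarith
  have hC16 : 1 ≤ C₁ ^ 6 := one_le_pow₀ hC₁
  have hC0 : 0 < C := by nlinarith
  have hl45 : l ^ 4 ≤ l ^ 5 := pow_le_pow_right₀ hl1 (by norm_num)
  have h3 : lj * (C₁ * l) ^ 4 * C₂ ≤ (1 + q / (C * l ^ 4)) * (C₁ * l) ^ 4 * C₂ := by
    refine mul_le_mul_of_nonneg_right ?_ (by linarith)
    exact mul_le_mul_of_nonneg_right hlj (by positivity)
  have h4 : q / (C * l ^ 4) * l ^ 4 = q / C := by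
    field_simp
  have h5 : l ^ 5 ≤ q / C := by
    rw [le_div_iff₀ (by positivity)]
    linarith
  have hC14 : C₁ ^ 4 ≤ C₁ ^ 5 := pow_le_pow_right₀ hC₁ (by norm_num)
  have hq : 0 ≤ q / C := by positivity
  have h6 : (1 + q / (C * l ^ 4)) * (C₁ * l) ^ 4 * C₂ + C₂ * (C₁ * l) ^ 5 ≤
      3 * (C₂ * C₁ ^ 5) * (q / C) := by
    have e : (1 + q / (C * l ^ 4)) * (C₁ * l) ^ 4 * C₂ =
        (C₂ * C₁ ^ 4) * (l ^ 4 + q / (C * l ^ 4) * l ^ 4) := by ring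
    rw [e, h4]
    have h7 : (C₂ * C₁ ^ 4) * (l ^ 4 + q / C) ≤
        (C₂ * C₁ ^ 5) * (q / C + q / C) := by
      refine mul_le_mul ?_ ?_ ?_ (by positivity)
      · exact mul_le_mul_of_nonneg_left hC14 (by linarith)
      · exact add_le_add (hl45.trans h5) le_rfl
      · positivity
    have h8 : C₂ * (C₁ * l) ^ 5 ≤ (C₂ * C₁ ^ 5) * (q / C) := by
      rw [mul_pow, ← mul_assoc]
      exact mul_le_mul_of_nonneg_left h5 (by positivity)
    linarith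
  refine (add_le_add h3 le_rfl).trans (h6.trans ?_)
  have h9 : 3 * (C₂ * C₁ ^ 5) * (q / C) * C₁ ≤ q := by
    rw [mul_div_assoc', div_mul_eq_mul_div, div_le_iff₀ (by positivity)]
    have h10 : 3 * (C₂ * C₁ ^ 5) * q * C₁ = (3 * C₂ * C₁ ^ 6) * q := by ring
    rw [h10, mul_comm q]
    exact mul_le_mul_of_nonneg_right hC hq0
  have h11 := h9.trans hqw
  rw [mul_comm C₁] at h11
  exact le_of_mul_le_mul_right h11 (by linarith)

/-- facts on the number `J = ⌈exp (log k / (C l ^ 4))⌉` of terms -/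
theorem num_J {C l : ℝ} {k : ℕ} (hC2 : 2 ≤ C) (hl1 : 1 ≤ l) (hk : 4 ≤ k) :
    Real.exp (Real.log k / (C * l ^ 4)) ≤ (⌈Real.exp (Real.log k / (C * l ^ 4))⌉₊ : ℝ) ∧
    1 ≤ ⌈Real.exp (Real.log k / (C * l ^ 4))⌉₊ ∧
    ⌈Real.exp (Real.log k / (C * l ^ 4))⌉₊ ≤ k ∧
    Real.log (⌈Real.exp (Real.log k / (C * l ^ 4))⌉₊ : ℝ) ≤ 1 + Real.log k / (C * l ^ 4) := by
  have hk4 : (4 : ℝ) ≤ k := by exact_mod_cast hk
  have hk0 : (0 : ℝ) < k := by linarith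
  have hlk : 0 ≤ Real.log k := Real.log_nonneg (by linarith)
  set T : ℝ := Real.exp (Real.log k / (C * l ^ 4)) with hT
  have hT1 : 1 ≤ T := Real.one_le_exp (by positivity)
  set J : ℕ := ⌈T⌉₊ with hJ
  have hJT : T ≤ J := Nat.le_ceil T
  have hJT2 : (J : ℝ) ≤ 2 * T := by
    have := Nat.ceil_lt_add_one (by linarith : 0 ≤ T)
    linarith
  have hJ1 : 1 ≤ J := Nat.one_le_ceil_iff.2 (by linarith)
  refine ⟨hJT, hJ1, ?_, ?_⟩
  · have hTk : T ^ 2 ≤ k := by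
      have e : (k : ℝ) = Real.exp (Real.log k) := (Real.exp_log hk0).symm
      rw [e, hT, ← Real.exp_nat_mul]
      refine Real.exp_le_exp.2 ?_
      have h3 : 2 ≤ C * l ^ 4 := by
        have : 1 ≤ l ^ 4 := one_le_pow₀ hl1
        nlinarith
      push_cast
      rw [mul_div_assoc', div_le_iff₀ (by positivity)]
      nlinarith
    have h3 : (J : ℝ) ≤ k := by nlinarith
    exact_mod_cast h3
  · have hJ0 : (0 : ℝ) < J := by exact_mod_cast hJ1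
    refine (Real.log_le_log hJ0 hJT2).trans ?_
    rw [Real.log_mul two_ne_zero (by positivity), hT, Real.log_exp]
    have := Real.log_two_lt_d9
    linarith

theorem num_v {C₂ : ℝ} {k K : ℕ} {v : ℤ × ℤ} (hC₂ : 1 ≤ C₂) (hkC : 4 * C₂ ^ 2 ≤ k) (hKk : K ≤ k)
    (hv1 : |(v.1 : ℝ)| ≤ C₂ * K) (hv2 : |(v.2 : ℝ)| ≤ C₂ * K) :
    (((⟨v.1, v.2⟩ : GaussianInt).norm : ℤ) : ℝ) ≤ (k : ℝ) ^ 4 := by
  have e : (((⟨v.1, v.2⟩ : GaussianInt).norm : ℤ) : ℝ) = (v.1 : ℝ) ^ 2 + (v.2 : ℝ) ^ 2 := by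
    simp only [Zsqrtd.norm]
    push_cast
    ring
  rw [e]
  have hKk' : (K : ℝ) ≤ k := by exact_mod_cast hKk
  have hk4 : (4 : ℝ) ≤ k := by nlinarith
  have h3 : (v.1 : ℝ) ^ 2 ≤ (C₂ * k) ^ 2 := by
    rw [← sq_abs (v.1 : ℝ)]
    exact pow_le_pow_left₀ (abs_nonneg _)
      (hv1.trans (mul_le_mul_of_nonneg_left hKk' (by linarith))) 2
  have h4 : (v.2 : ℝ) ^ 2 ≤ (C₂ * k) ^ 2 := by
    rw [← sq_abs (v.2 : ℝ)]
    exact pow_le_pow_left₀ (abs_nonneg _)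
      (hv2.trans (mul_le_mul_of_nonneg_left hKk' (by linarith))) 2
  have h5 : 2 * (C₂ * k) ^ 2 ≤ (k : ℝ) ^ 4 := by
    have h6 : 4 * C₂ ^ 2 ≤ (k : ℝ) ^ 2 := by nlinarith
    have h7 : (0 : ℝ) ≤ (k : ℝ) ^ 2 := by positivity
    calc 2 * (C₂ * k) ^ 2 = (2 * C₂ ^ 2) * (k : ℝ) ^ 2 := by ring
      _ ≤ (4 * C₂ ^ 2) * (k : ℝ) ^ 2 := by
        refine mul_le_mul_of_nonneg_right ?_ h7
        nlinarith [sq_nonneg C₂]
      _ ≤ (k : ℝ) ^ 2 * (k : ℝ) ^ 2 := mul_le_mul_of_nonneg_right h6 h7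
      _ = (k : ℝ) ^ 4 := by ring
  linarith

theorem apStep_of {C₁ : ℝ} (hC₁ : 1 ≤ C₁) (hE : ∀ D : ℝ, EnergyStepC C₁ D) (hA : EnergyAP) :
    ∃ C : ℝ, 1 ≤ C ∧ ∀ D : ℝ, APStepC C D := by
  obtain ⟨C₂, hC₂, h2⟩ := hA
  obtain ⟨C, hC, hC2, hC1C, hC1C'⟩ : ∃ C : ℝ, 3 * C₂ * C₁ ^ 6 ≤ C ∧ 2 ≤ C ∧ C₁ * C₂ ≤ C ∧
      C₁ ≤ C := by
    have hC16 : 1 ≤ C₁ ^ 6 := one_le_pow₀ hC₁
    have h3 : C₁ ≤ C₁ ^ 6 := by
      calc C₁ = C₁ ^ 1 := (pow_one _).symm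
        _ ≤ C₁ ^ 6 := pow_le_pow_right₀ hC₁ (by norm_num)
    exact ⟨3 * C₂ * C₁ ^ 6 + 2, by linarith, by nlinarith, by nlinarith, by nlinarith⟩
  refine ⟨C, by linarith, fun D => ?_⟩
  obtain ⟨k₁, h1⟩ := hE D
  have hlogk : Tendsto (fun k : ℕ => Real.log (k : ℝ)) atTop atTop :=
    Real.tendsto_log_atTop.comp tendsto_natCast_atTop_atTop
  have hcast : Tendsto (fun k : ℕ => (k : ℝ)) atTop atTop := tendsto_natCast_atTop_atTop
  obtain ⟨k₀, hk₀⟩ := Filter.eventually_atTop.1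
    ((hlogk.eventually (eventually_ge_atTop 8)).and
      ((hcast.eventually (eventually_ge_atTop (4 * C₂ ^ 2))).and (eventually_ge_atTop (k₁ + 4))))
  refine ⟨k₀, fun k hk g hinj hstep R hRk hCR hlt hR => ?_⟩
  obtain ⟨hk8, hkC, hkk⟩ := hk₀ k hk
  have hR8 : 8 ≤ R := hk8.trans hRk
  have hR0 : 0 < R := by linarith
  have hl1 : 1 ≤ Real.log R := by
    have h3 : Real.exp 1 ≤ R := by
      have := Real.exp_one_lt_d9
      linarith
    calc (1 : ℝ) = Real.log (Real.exp 1) := (Real.log_exp 1).symm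
      _ ≤ Real.log R := Real.log_le_log (Real.exp_pos 1) h3
  have hk0 : (0 : ℝ) < k := by
    have : 0 < k := by omega
    exact_mod_cast this
  have hl15 : Real.log R ≤ Real.log R ^ 5 := by
    calc Real.log R = Real.log R ^ 1 := (pow_one _).symm
      _ ≤ Real.log R ^ 5 := pow_le_pow_right₀ hl1 (by norm_num)
  have hRk' : R ^ C₁ ≤ k := by
    rw [← Real.exp_log hk0, Real.rpow_def_of_pos hR0]
    refine Real.exp_le_exp.2 (le_trans ?_ hCR)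
    rw [mul_comm]
    exact mul_le_mul hC1C' hl15 (by linarith) (by linarith)
  obtain ⟨W, z, K, hWS, hWbox, hK1, hKk, hWk, hWK, hWE⟩ :=
    h1 k (by omega) g hinj hstep R hRk hRk' hlt hR
  have hWpos : 0 < W.card := by
    rcases Nat.eq_zero_or_pos W.card with h | h
    · exfalso
      rw [h, Nat.cast_zero, Real.zero_rpow (by linarith)] at hWk
      linarith
    · exact h
  have hW0 : (0 : ℝ) < W.card := by exact_mod_cast hWpos
  have hlogW : Real.log k ≤ C₁ * Real.log W.card := by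
    rw [← Real.log_rpow hW0]
    exact Real.log_le_log hk0 hWk
  obtain ⟨hJT, hJ1, hJk, hlogJ⟩ := num_J (k := k) hC2 hl1 (by omega)
  generalize ⌈Real.exp (Real.log k / (C * Real.log R ^ 4))⌉₊ = J at hJT hJ1 hJk hlogJ
  have hL2 : 2 ≤ R ^ C₁ := by
    calc (2 : ℝ) ≤ R := by linarith
      _ = R ^ (1 : ℝ) := (Real.rpow_one R).symm
      _ ≤ R ^ C₁ := Real.rpow_le_rpow_of_exponent_le (by linarith) hC₁
  have hlogL : Real.log (R ^ C₁) = C₁ * Real.log R := Real.log_rpow hR0 _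
  have hcardW : (W.image (co z)).card = W.card :=
    Finset.card_image_of_injective _ (co_injective z)
  obtain ⟨x, v, hv, hv1, hv2, hJB⟩ := h2 (W.image (co z)) K (R ^ C₁) J hL2 hK1 (by
      intro w hw
      rw [mem_image] at hw
      obtain ⟨a, ha, rfl⟩ := hw
      exact hWbox a ha) (by rw [hcardW]; exact hWK) (by rw [hcardW, co_energy]; exact hWE) hJ1 (by
      rw [hcardW, hlogL]
      exact num_cond hC₁ hC₂ hC hl1 (by linarith) hCR hlogJ hlogW)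
  refine ⟨z + ⟨x.1, x.2⟩, ⟨v.1, v.2⟩, J,
    ((Finset.range J).filter (fun j => x + j • v ∈ W.image (co z))).image (fun j : ℕ => (j : ℤ)),
    ?_, num_v hC₂ hkC hKk hv1 hv2, hJT, hJk, ?_, ?_, ?_⟩
  · intro h
    apply hv
    have h3 := Zsqrtd.ext_iff.1 h
    exact Prod.ext h3.1 h3.2
  · intro j hj
    rw [mem_image] at hj
    obtain ⟨i, hi, rfl⟩ := hj
    rw [mem_filter, mem_range] at hi
    omega
  · intro j hj
    rw [mem_image] at hj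
    obtain ⟨i, hi, rfl⟩ := hj
    rw [mem_filter, mem_image] at hi
    obtain ⟨-, w, hw, hwe⟩ := hi
    have h3 : w = z + ⟨x.1, x.2⟩ + ((i : ℤ) : GaussianInt) * ⟨v.1, v.2⟩ := by
      have h4 := Prod.ext_iff.1 hwe
      have h5 : w.re - z.re = x.1 + i * v.1 := by
        have := h4.1
        rw [Prod.fst_add, Prod.smul_fst, nsmul_eq_mul] at this
        exact this
      have h6 : w.im - z.im = x.2 + i * v.2 := by
        have := h4.2
        rw [Prod.snd_add, Prod.smul_snd, nsmul_eq_mul] at this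
        exact this
      rw [Zsqrtd.ext_iff]
      simp
      constructor <;> linarith
    rw [← h3]
    exact hWS hw
  · rw [Finset.card_image_of_injective _ Nat.cast_injective]
    refine hJB.trans ?_
    refine mul_le_mul_of_nonneg_right ?_ (Nat.cast_nonneg _)
    rw [← Real.rpow_mul hR0.le]
    exact Real.rpow_le_rpow_of_exponent_le (by linarith) hC1C

/-- The final theorem from the energy step and the progression theorem. -/
theorem main {C : ℝ} (hC : 1 ≤ C) (hE : ∀ D : ℝ, EnergyStepC C D) (hA : EnergyAP) :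
    ∃ c : ℝ, 0 < c ∧
      (∀ D : ℝ, ∃ k₀ : ℕ, ∀ k : ℕ, k₀ ≤ k →
        ∀ γ : ℕ → {z : GaussianInt // Prime z}, IsInfinitePath D γ → ∀ n₀ : ℕ,
          Real.exp (Real.exp (c * Real.log k ^ (1 / 5 : ℝ))) ≤
            (complexity (fun n => (γ n).1) n₀ k : ℝ)) ∧
      ∀ D : ℝ, ∃ k₀ : ℕ, ∀ k : ℕ, k₀ ≤ k → ∀ N : ℕ,
        2 * k * Real.exp (Real.exp (c * Real.log k ^ (1 / 5 : ℝ))) ≤ N →
        ∀ g : ℕ → GaussianInt,
          (∀ m ≤ N, ∀ n ≤ N, g m = g n → m = n) →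
          (∀ n < N, dist (GaussianInt.toComplex (g n)) (GaussianInt.toComplex (g (n + 1))) ≤ D) →
          (∀ π : GaussianInt, Prime π → π.norm ≤ N →
            ∃ a : GaussianInt, ∀ n ≤ N, ¬ π ∣ g n - a) →
          Real.exp (Real.exp (c * Real.log k ^ (1 / 5 : ℝ))) ≤
            ((stepWord g k '' {n | n + k ≤ N}).ncard : ℝ) := by
  obtain ⟨C', hC', h⟩ := apStep_of hC hE hA
  obtain ⟨c, hc, hfin⟩ := num_final (4 * C' * (C' + 2)) (by positivity)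
  exact ⟨c, hc, complexity_lower hC' h hfin, complexity_lower_finite hC' h hfin⟩

end Vale.Agent.P015.R2.H731
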