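import Vale.Agent.P015.R2.H116.Defs
import Vale.Agent.P015.R2.H222.L1
import Vale.Agent.P015.Cx.Core

namespace Vale.Agent.P015.R2.H731

open Finset Vale.Agent.P006.CLS Vale.Agent.P015.H222 Vale.Agent.P015 Vale.Agent.P015.Cx
  Vale.Agent.P015.R2.H116

open scoped ComplexConjugate

theorem bridge {p : ℕ} (hp : p.Prime) {r : ℤ} (hr : (p : ℤ) ∣ r ^ 2 + 1) {c : ℤ}
    (hc : ¬ (p : ℤ) ∣ c) : ∃ π α : GaussianInt, Prime π ∧ π.norm = p ∧ ¬ π ∣ α ∧
      GaussianInt.toComplex α / GaussianInt.toComplex π =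
        (c : ℂ) * (1 - Complex.I * r) / p := by
  have hr' : (r : ZMod p) ^ 2 + 1 = 0 := by
    have := (ZMod.intCast_zmod_eq_zero_iff_dvd (r ^ 2 + 1) p).2 hr
    push_cast at this
    exact this
  have hj : (-(r : ZMod p)) * (-(r : ZMod p)) = -1 := by linear_combination hr'
  obtain ⟨q, hq, hqn, hqd⟩ := exists_gprime hp hj
  have h1 : phi p (-(r : ZMod p)) (⟨1, -r⟩ : GaussianInt) = 0 := by
    simp only [phi]
    push_cast
    linear_combination hr'
  obtain ⟨β, hβ⟩ := hqd _ h1
  have hqs : Prime (star q) := by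
    have := (MulEquiv.prime_iff (starMulAut (R := GaussianInt)) (p := q)).2 hq
    simpa using this
  have hqq : q * star q = (p : GaussianInt) := by
    have := Zsqrtd.norm_eq_mul_conj q
    rw [hqn] at this
    rw [← this]
    push_cast
    rfl
  have hnorm : (star q).norm = p := by rw [Zsqrtd.norm_conj, hqn]
  refine ⟨star q, (c : GaussianInt) * β, hqs, hnorm, ?_, ?_⟩
  · intro hd
    rcases hqs.dvd_or_dvd hd with h | h
    · obtain ⟨z, hz⟩ := h
      have h2 := congrArg Zsqrtd.norm hz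
      rw [Zsqrtd.norm_mul, hnorm, Zsqrtd.norm_intCast] at h2
      have h3 : (p : ℤ) ∣ c * c := ⟨_, h2⟩
      exact hc ((Nat.prime_iff_prime_int.1 hp).dvd_or_dvd h3 |>.elim id id)
    · obtain ⟨z, hz⟩ := h
      have h2 : (⟨1, -r⟩ : GaussianInt) = (p : GaussianInt) * z := by
        rw [hβ, hz, ← hqq]; ring
      have h3 := congrArg Zsqrtd.re h2
      simp only [Zsqrtd.re_mul, Zsqrtd.re_natCast, Zsqrtd.im_natCast] at h3
      have h4 : (p : ℤ) ∣ 1 := ⟨z.re, by linarith⟩
      have h5 := Int.eq_one_of_dvd_one (by positivity) h4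
      have h6 := hp.one_lt
      omega
  · have hp0 : (p : ℂ) ≠ 0 := by
      have := hp.ne_zero
      exact_mod_cast this
    have hs0 : GaussianInt.toComplex (star q) ≠ 0 := by
      intro h
      rw [GaussianInt.toComplex_eq_zero] at h
      exact hqs.ne_zero h
    have e1 : GaussianInt.toComplex (⟨1, -r⟩ : GaussianInt) = 1 - Complex.I * r := by
      rw [GaussianInt.toComplex_def]
      push_cast
      ring
    have e2 : GaussianInt.toComplex q * GaussianInt.toComplex (star q) = p := by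
      rw [← map_mul, hqq, map_natCast]
    rw [div_eq_div_iff hs0 hp0, ← e1, hβ, map_mul, map_mul, ← e2, map_intCast]
    ring

end Vale.Agent.P015.R2.H731
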