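import Vale.Agent.P015.R2.H731.Walk
import Vale.Agent.P015.R2.H731.AP

/-! Final assembly: from the progression step to the lower bound for the complexity. -/

namespace Vale.Agent.P015.R2.H731

open Finset Vale.Agent.P015 Vale.Agent.P015.Cx Filter Topology

/-- The progression step (modules M1, M2, M3): a `D`-path of `k + 1` points whose missed classes
satisfy the harmonic bound `R` has many points on a long progression. -/
def APStepC (C D : ℝ) : Prop :=
  ∃ k₀ : ℕ, ∀ k : ℕ, k₀ ≤ k → ∀ g : ℕ → GaussianInt,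
    (∀ a ≤ k, ∀ b ≤ k, g a = g b → a = b) →
    (∀ a b, a ≤ b → b ≤ k → ((g b - g a).norm : ℝ) ≤ (D * ((b - a : ℕ) : ℝ)) ^ 2) →
    ∀ R : ℝ, Real.log k ≤ R → C * Real.log R ^ 5 ≤ Real.log k →
    (∀ p ∈ primesMod 0 k, ∀ b : Bool, ((disp g 0 k).image (phi p (root p b))).card < p) →
    ∑ p ∈ primesMod 0 k, ∑ b : Bool,
      Real.log p / ((p : ℝ) - ((disp g 0 k).image (phi p (root p b))).card) ≤ R →
    ∃ (x v : GaussianInt) (J : ℕ) (B : Finset ℤ), v ≠ 0 ∧ (v.norm : ℝ) ≤ (k : ℝ) ^ 4 ∧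
      Real.exp (Real.log k / (C * Real.log R ^ 4)) ≤ J ∧ J ≤ k ∧
      (∀ j ∈ B, 0 ≤ j ∧ j < J) ∧ (∀ j ∈ B, x + (j : GaussianInt) * v ∈ disp g 0 k) ∧
      (J : ℝ) ≤ R ^ C * B.card

theorem harm_lower {C D : ℝ} (hC1 : 1 ≤ C) (h : APStepC C D) :
    ∃ k₀ : ℕ, ∀ k : ℕ, k₀ ≤ k → ∀ g : ℕ → GaussianInt,
      (∀ a ≤ k, ∀ b ≤ k, g a = g b → a = b) →
      (∀ a b, a ≤ b → b ≤ k → ((g b - g a).norm : ℝ) ≤ (D * ((b - a : ℕ) : ℝ)) ^ 2) →
      ∀ R : ℝ, Real.log k ≤ R →
      (∀ p ∈ primesMod 0 k, ∀ b : Bool, ((disp g 0 k).image (phi p (root p b))).card < p) →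
      ∑ p ∈ primesMod 0 k, ∑ b : Bool,
        Real.log p / ((p : ℝ) - ((disp g 0 k).image (phi p (root p b))).card) ≤ R →
      Real.log k < 4 * C * (C + 2) * Real.log R ^ 5 := by
  obtain ⟨k₁, hAP⟩ := h
  obtain ⟨C0, hC0, y₀, hy₀, hap⟩ := ap_bound
  have hlogk : Tendsto (fun k : ℕ => Real.log (k : ℝ)) atTop atTop :=
    Real.tendsto_log_atTop.comp tendsto_natCast_atTop_atTop
  obtain ⟨k₀, hk₀⟩ := Filter.eventually_atTop.1
    ((hlogk.eventually (eventually_gt_atTop (8 * C0))).and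
      ((hlogk.eventually (eventually_ge_atTop (y₀ + 32 : ℝ))).and (eventually_ge_atTop (k₁ + 4))))
  refine ⟨k₀, fun k hk g hinj hstep R hRk hlt hR => ?_⟩
  obtain ⟨hkC0, hky, hkk⟩ := hk₀ k hk
  by_contra hcon
  rw [not_lt] at hcon
  have hR32 : (y₀ : ℝ) + 32 ≤ R := hky.trans hRk
  have hy₀0 : (0 : ℝ) ≤ y₀ := Nat.cast_nonneg _
  have hR1 : 1 < R := by linarith
  have hR0 : 0 < R := by linarith
  set L := Real.log R with hL
  have hL0 : 0 < L := Real.log_pos hR1
  have hCL : C * L ^ 5 ≤ Real.log k := by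
    refine le_trans ?_ hcon
    refine mul_le_mul_of_nonneg_right ?_ (by positivity)
    nlinarith
  obtain ⟨x, v, J, B, hv, hvn, hJ1, hJk, hB, hBS, hJB⟩ :=
    hAP k (by omega) g hinj hstep R hRk hCL hlt hR
  -- the length of the progression
  have hJ2 : R ^ (4 * (C + 2)) ≤ J := by
    refine le_trans ?_ hJ1
    rw [Real.rpow_def_of_pos hR0]
    refine Real.exp_le_exp.2 ?_
    rw [le_div_iff₀ (by positivity), ← hL]
    calc L * (4 * (C + 2)) * (C * L ^ 4) = 4 * C * (C + 2) * L ^ 5 := by ring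
      _ ≤ Real.log k := hcon
  set y := Nat.sqrt J + 1 with hy
  have hJy : J ≤ y ^ 2 := (Nat.lt_succ_sqrt' J).le
  have hyJ : (y - 1) ^ 2 ≤ J := by
    rw [hy, Nat.add_sub_cancel]
    exact Nat.sqrt_le' J
  have hy1 : 1 ≤ y := by omega
  have hy0 : (0 : ℝ) < y := by exact_mod_cast hy1
  have hRy : R ^ (2 * (C + 2)) ≤ y := by
    have h1 : (R ^ (2 * (C + 2))) ^ 2 ≤ (y : ℝ) ^ 2 := by
      rw [← Real.rpow_natCast, ← Real.rpow_mul hR0.le]
      have : 2 * (C + 2) * ((2 : ℕ) : ℝ) = 4 * (C + 2) := by push_cast; ring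
      rw [this]
      refine hJ2.trans ?_
      exact_mod_cast hJy
    exact le_of_sq_le_sq h1 hy0.le
  have hR6 : R ^ 2 ≤ y := by
    refine le_trans ?_ hRy
    rw [← Real.rpow_natCast]
    refine Real.rpow_le_rpow_of_exponent_le hR1.le ?_
    push_cast
    linarith
  have hRy1 : R ≤ y := by nlinarith
  have hy0y : y₀ ≤ y := by
    have : (y₀ : ℝ) ≤ y := by linarith
    exact_mod_cast this
  have hy2 : 2 ≤ y := hy₀.trans hy0y
  have hyk : y ≤ k := by
    have h1 : Nat.sqrt J ≤ Nat.sqrt k := Nat.sqrt_le_sqrt hJk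
    have h2 : Nat.sqrt k * Nat.sqrt k ≤ k := Nat.sqrt_le k
    have h3 : 2 ≤ Nat.sqrt k := by rw [Nat.le_sqrt]; omega
    nlinarith
  have hlogv : Real.log (v.norm : ℝ) ≤ y / 8 := by
    have hk0 : (0 : ℝ) < k := by
      have : 0 < k := by omega
      exact_mod_cast this
    have h1 : Real.log (v.norm : ℝ) ≤ 4 * Real.log k := by
      have h2 : (0 : ℝ) < (v.norm : ℝ) := by exact_mod_cast GaussianInt.norm_pos.2 hv
      have h3 := Real.log_le_log h2 hvn
      rw [Real.log_pow] at h3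
      exact_mod_cast h3
    have h4 : 32 * R ≤ y := by nlinarith
    linarith
  have hcard := hap (disp g 0 k) k R hlt hR x v y J hv hy0y hyk hJy hlogv B hB hBS
  -- the contradiction
  have hy2r : (2 : ℝ) ≤ y := by exact_mod_cast hy2
  have h1 : ((y : ℝ) - 1) ^ 2 ≤ J := by
    have h2 : (((y - 1 : ℕ) ^ 2 : ℕ) : ℝ) ≤ J := by exact_mod_cast hyJ
    rw [Nat.cast_pow, Nat.cast_sub hy1, Nat.cast_one] at h2
    exact h2
  have h2 : (y : ℝ) ^ 2 / 4 ≤ J := by nlinarith
  have hsq : Real.sqrt y ^ 2 = y := Real.sq_sqrt hy0.le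
  have hs1 : 0 < Real.sqrt y := Real.sqrt_pos.2 hy0
  have h3 : Real.log y ≤ 2 * Real.sqrt y := by
    have h4 : Real.log y = 2 * Real.log (Real.sqrt y) := by
      rw [← hsq, Real.log_pow, hsq]; norm_num
    have h5 := Real.log_le_sub_one_of_pos hs1
    linarith
  have hRC : 0 < R ^ C := by positivity
  have h4 : (y : ℝ) ^ 2 / 4 ≤ R ^ C * (C0 * y * (2 * Real.sqrt y) * R) := by
    refine (h2.trans hJB).trans (mul_le_mul_of_nonneg_left (hcard.trans ?_) hRC.le)
    refine mul_le_mul_of_nonneg_right ?_ hR0.le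
    exact mul_le_mul_of_nonneg_left h3 (by positivity)
  have h5 : Real.sqrt y ≤ 8 * C0 * R ^ (C + 1) := by
    rw [Real.rpow_add hR0, Real.rpow_one]
    have h6 : Real.sqrt y * (y * Real.sqrt y) ≤
        (8 * C0 * (R ^ C * R)) * (y * Real.sqrt y) := by
      have e1 : Real.sqrt y * (y * Real.sqrt y) = (y : ℝ) ^ 2 := by
        calc Real.sqrt y * (y * Real.sqrt y) = y * Real.sqrt y ^ 2 := by ring
          _ = (y : ℝ) ^ 2 := by rw [hsq]; ring
      rw [e1]
      nlinarith [h4]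
    exact le_of_mul_le_mul_right h6 (by positivity)
  have h6 : R ^ (C + 2) ≤ Real.sqrt y := by
    refine Real.le_sqrt_of_sq_le ?_
    rw [← Real.rpow_natCast, ← Real.rpow_mul hR0.le]
    refine le_trans (le_of_eq ?_) hRy
    congr 1
    push_cast
    ring
  have h7 : R * R ^ (C + 1) ≤ (8 * C0) * R ^ (C + 1) := by
    have e : R ^ (C + 2) = R * R ^ (C + 1) := by
      rw [show C + 2 = 1 + (C + 1) by ring, Real.rpow_add hR0 1, Real.rpow_one]
    rw [← e]
    exact h6.trans h5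
  have h8 := le_of_mul_le_mul_right h7 (by positivity)
  linarith

/-- The numerical statement at the end of the argument. -/
def NumFin (a c : ℝ) : Prop :=
  ∀ D : ℝ, ∃ k₀ : ℕ, ∀ k : ℕ, k₀ ≤ k → ∀ p : ℕ, 1 ≤ p →
    Real.log k < a * Real.log (2 * Real.log 4 + 2 * Real.log (max D 1 * (k * p : ℕ))) ^ 5 →
    Real.exp (Real.exp (c * Real.log k ^ (1 / 5 : ℝ))) ≤ (p : ℝ)

theorem num_final (a : ℝ) (ha : 0 < a) : ∃ c : ℝ, 0 < c ∧ NumFin a c := by
  set c : ℝ := (1 / a) ^ (1 / 5 : ℝ) / 2 with hc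
  have hc0 : 0 < c := by positivity
  refine ⟨c, hc0, fun D => ?_⟩
  have hlogk : Tendsto (fun k : ℕ => Real.log (k : ℝ)) atTop atTop :=
    Real.tendsto_log_atTop.comp tendsto_natCast_atTop_atTop
  have ht : Tendsto (fun k : ℕ => c * Real.log (k : ℝ) ^ (1 / 5 : ℝ)) atTop atTop :=
    ((tendsto_rpow_atTop (by norm_num : (0 : ℝ) < 1 / 5)).comp hlogk).const_mul_atTop hc0
  -- polynomial against exponential
  have hev1 : ∀ᶠ t : ℝ in atTop, Real.log 4 + Real.log (max D 1) + (t / c) ^ 5 ≤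
      Real.exp t := by
    have h1 : Tendsto (fun t : ℝ => Real.exp t / t ^ 5) atTop atTop :=
      Real.tendsto_exp_div_pow_atTop 5
    have h2 := h1.eventually (eventually_ge_atTop
      (Real.log 4 + Real.log (max D 1) + (1 / c) ^ 5))
    filter_upwards [h2, eventually_ge_atTop 1] with t ht1 ht2
    have ht6 : (1 : ℝ) ≤ t ^ 5 := one_le_pow₀ ht2
    rw [le_div_iff₀ (by positivity)] at ht1
    have hl4 : 0 ≤ Real.log 4 := Real.log_nonneg (by norm_num)
    have hlD : 0 ≤ Real.log (max D 1) := Real.log_nonneg (le_max_right _ _)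
    refine le_trans ?_ ht1
    have e : (t / c) ^ 5 = (1 / c) ^ 5 * t ^ 5 := by ring
    rw [e]
    nlinarith
  have hev2 : ∀ᶠ t : ℝ in atTop, 4 ≤ Real.exp t :=
    Real.tendsto_exp_atTop.eventually (eventually_ge_atTop 4)
  obtain ⟨k₂, hk₂⟩ := Filter.eventually_atTop.1
    ((ht.eventually (hev1.and hev2)).and (eventually_ge_atTop 2))
  refine ⟨k₂, fun k hk p hp1 key => ?_⟩
  obtain ⟨⟨ht1, ht2⟩, hk2⟩ := hk₂ k hk
  set t : ℝ := c * Real.log (k : ℝ) ^ (1 / 5 : ℝ) with htdef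
  have hlk : 0 < Real.log k := Real.log_pos (by exact_mod_cast (show 1 < k by omega))
  have hk0 : (0 : ℝ) < k := by exact_mod_cast (show 0 < k by omega)
  have hp0 : (0 : ℝ) < p := by exact_mod_cast hp1
  set R : ℝ := 2 * Real.log 4 + 2 * Real.log (max D 1 * (k * p : ℕ)) with hRdef
  have hR : R = 2 * Real.log 4 + 2 * (Real.log (max D 1) + (Real.log k + Real.log p)) := by
    rw [hRdef]
    push_cast
    rw [Real.log_mul (by positivity) (by positivity), Real.log_mul hk0.ne' hp0.ne']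
  have hl4 : 0 ≤ Real.log 4 := Real.log_nonneg (by norm_num)
  have hlD : 0 ≤ Real.log (max D 1) := Real.log_nonneg (le_max_right _ _)
  have hlp : 0 ≤ Real.log p := Real.log_nonneg (by exact_mod_cast hp1)
  have hR0 : 0 < R := by rw [hR]; linarith
  have htpos : 0 ≤ t := by positivity
  have ht6 : t ^ 5 = c ^ 5 * Real.log k := by
    rw [htdef, mul_pow, ← Real.rpow_natCast (Real.log (k : ℝ) ^ (1 / 5 : ℝ)),
      ← Real.rpow_mul hlk.le]
    norm_num
  have hc6 : (2 * c) ^ 5 = 1 / a := by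
    rw [hc, mul_div_cancel₀ _ (two_ne_zero), ← Real.rpow_natCast, ← Real.rpow_mul (by positivity)]
    norm_num
  have h2t : (2 * t) ^ 5 < Real.log R ^ 5 := by
    have e : (2 * t) ^ 5 = Real.log k / a := by
      calc (2 * t) ^ 5 = 32 * t ^ 5 := by ring
        _ = 32 * (c ^ 5 * Real.log k) := by rw [ht6]
        _ = (2 * c) ^ 5 * Real.log k := by ring
        _ = Real.log k / a := by rw [hc6]; ring
    rw [e, div_lt_iff₀ ha, mul_comm]
    exact key
  have hlogR0 : 0 ≤ Real.log R := by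
    have h5 : Real.log 4 = 2 * Real.log 2 := by
      rw [show (4 : ℝ) = 2 ^ 2 by norm_num, Real.log_pow]; norm_num
    have h6 := Real.log_two_gt_d9
    have h7 : 1 ≤ R := by rw [hR]; linarith
    exact Real.log_nonneg h7
  have h2t' : 2 * t < Real.log R := lt_of_pow_lt_pow_left₀ 5 hlogR0 h2t
  have h3 : Real.exp (2 * t) < R := by
    rw [← Real.exp_log hR0]
    exact Real.exp_lt_exp.2 h2t'
  have h4 : Real.exp (2 * t) = Real.exp t * Real.exp t := by
    rw [← Real.exp_add]; ring_nf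
  have h6 : (t / c) ^ 5 = Real.log k := by
    rw [div_pow, ht6]
    field_simp
  rw [h6] at ht1
  have h7 : Real.exp t ≤ Real.log p := by
    have h8 : 4 * Real.exp t ≤ Real.exp t * Real.exp t :=
      mul_le_mul_of_nonneg_right ht2 (Real.exp_pos t).le
    linarith
  calc Real.exp (Real.exp t) ≤ Real.exp (Real.log p) := Real.exp_le_exp.2 h7
    _ = p := Real.exp_log hp0

theorem log_le_R (D : ℝ) {k p : ℕ} (hk : 1 ≤ k) (hp : 1 ≤ p) :
    Real.log k ≤ 2 * Real.log 4 + 2 * Real.log (max D 1 * (k * p : ℕ)) := by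
  have hk0 : (0 : ℝ) < k := by exact_mod_cast hk
  have hp0 : (0 : ℝ) < p := by exact_mod_cast hp
  push_cast
  rw [Real.log_mul (by positivity) (by positivity), Real.log_mul hk0.ne' hp0.ne']
  have hl4 : 0 ≤ Real.log 4 := Real.log_nonneg (by norm_num)
  have hlD : 0 ≤ Real.log (max D 1) := Real.log_nonneg (le_max_right _ _)
  have hlp : 0 ≤ Real.log p := Real.log_nonneg (by exact_mod_cast hp)
  have hlk : 0 ≤ Real.log k := Real.log_nonneg (by exact_mod_cast hk)
  linarith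

/-- **Final theorem** (conditional on the progression step). -/
theorem complexity_lower {C c : ℝ} (hC1 : 1 ≤ C) (h : ∀ D' : ℝ, APStepC C D')
    (hfin : NumFin (4 * C * (C + 2)) c) :
    ∀ D : ℝ, ∃ k₀ : ℕ, ∀ k : ℕ, k₀ ≤ k →
      ∀ γ : ℕ → {z : GaussianInt // Prime z}, IsInfinitePath D γ → ∀ n₀ : ℕ,
        Real.exp (Real.exp (c * Real.log k ^ (1 / 5 : ℝ))) ≤
          (complexity (fun n => (γ n).1) n₀ k : ℝ) := by
  intro D
  obtain ⟨k₁, hk₁⟩ := harm_lower hC1 (h (max D 1))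
  obtain ⟨k₂, hk₂⟩ := hfin D
  refine ⟨max (max k₁ k₂) 1, fun k hk γ hγ n₀ => ?_⟩
  have hk1 : 1 ≤ k := (le_max_right _ _).trans hk
  have hkk₁ : k₁ ≤ k := (le_max_left _ _).trans ((le_max_left _ _).trans hk)
  have hkk₂ : k₂ ≤ k := (le_max_right _ _).trans ((le_max_left _ _).trans hk)
  set p : ℕ := complexity (fun n => (γ n).1) n₀ k with hp
  have hp1 : 1 ≤ p := by
    rw [hp, complexity, Nat.one_le_iff_ne_zero]
    intro h
    rw [Set.ncard_eq_zero (finite_words hγ k n₀)] at h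
    have : stepWord (fun n => (γ n).1) k n₀ ∈
        stepWord (fun n => (γ n).1) k '' Set.Ici n₀ := ⟨n₀, Set.mem_Ici.2 le_rfl, rfl⟩
    rw [h] at this
    exact this
  obtain ⟨n, hn, hbig, hlt, hsum⟩ := popular_path hγ n₀ k k k (by omega)
  have hdisp : disp (fun i => (γ (n + i)).1) 0 k = disp (fun n => (γ n).1) n k := by
    unfold disp
    simp only [zero_add, add_zero]
  refine hk₂ k hkk₂ p hp1 ?_
  refine hk₁ k hkk₁ (fun i => (γ (n + i)).1) ?_ ?_ _ (log_le_R D hk1 hp1) ?_ ?_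
  · intro a _ b _ hab
    have h1 := hγ.1 (Subtype.ext hab)
    omega
  · intro a b hab _
    have h1 := dist_path_le hγ (n + a) (n + b) (by omega)
    have e : n + b - (n + a) = b - a := by omega
    rw [e] at h1
    have h3 := h1.trans (mul_le_mul_of_nonneg_right (le_max_left D 1) (Nat.cast_nonneg (b - a)))
    rw [← dist_sq, dist_comm]
    exact pow_le_pow_left₀ dist_nonneg h3 2
  · intro q hq b
    rw [hdisp]
    rw [mem_primesMod] at hq
    exact hlt q hq.2.1 hq.2.2 hq.1.2 b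
  · rw [hdisp]
    exact hsum

/-- Distances along a finite path. -/
theorem dist_finite_path_le {D : ℝ} {g : ℕ → GaussianInt} {N : ℕ}
    (hstep : ∀ n < N, dist (GaussianInt.toComplex (g n)) (GaussianInt.toComplex (g (n + 1))) ≤ D)
    (m n : ℕ) (hmn : m ≤ n) (hn : n ≤ N) :
    dist (GaussianInt.toComplex (g m)) (GaussianInt.toComplex (g n)) ≤ D * ((n - m : ℕ) : ℝ) := by
  induction n, hmn using Nat.le_induction with
  | base => simp
  | succ n hmn ih =>
    have h1 := hstep n (by omega)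
    have h2 := dist_triangle (GaussianInt.toComplex (g m)) (GaussianInt.toComplex (g n))
      (GaussianInt.toComplex (g (n + 1)))
    have h3 : ((n + 1 - m : ℕ) : ℝ) = ((n - m : ℕ) : ℝ) + 1 := by
      rw [Nat.sub_add_comm hmn]; push_cast; ring
    have h4 := ih (by omega)
    rw [h3]
    linarith

/-- **Final theorem, finite uniform version** (conditional on the progression step). -/
theorem complexity_lower_finite {C c : ℝ} (hC1 : 1 ≤ C) (h : ∀ D' : ℝ, APStepC C D')
    (hfin : NumFin (4 * C * (C + 2)) c) :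
    ∀ D : ℝ, ∃ k₀ : ℕ, ∀ k : ℕ, k₀ ≤ k → ∀ N : ℕ,
      2 * k * Real.exp (Real.exp (c * Real.log k ^ (1 / 5 : ℝ))) ≤ N →
      ∀ g : ℕ → GaussianInt,
        (∀ m ≤ N, ∀ n ≤ N, g m = g n → m = n) →
        (∀ n < N, dist (GaussianInt.toComplex (g n)) (GaussianInt.toComplex (g (n + 1))) ≤ D) →
        (∀ π : GaussianInt, Prime π → π.norm ≤ N →
          ∃ c : GaussianInt, ∀ n ≤ N, ¬ π ∣ g n - c) →
        Real.exp (Real.exp (c * Real.log k ^ (1 / 5 : ℝ))) ≤
          ((stepWord g k '' {n | n + k ≤ N}).ncard : ℝ) := by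
  intro D
  obtain ⟨k₁, hk₁⟩ := harm_lower hC1 (h (max D 1))
  obtain ⟨k₂, hk₂⟩ := hfin D
  refine ⟨max (max k₁ k₂) 1, fun k hk N hN g hinj hstep hmiss => ?_⟩
  have hk1 : 1 ≤ k := (le_max_right _ _).trans hk
  have hkk₁ : k₁ ≤ k := (le_max_left _ _).trans ((le_max_left _ _).trans hk)
  have hkk₂ : k₂ ≤ k := (le_max_right _ _).trans ((le_max_left _ _).trans hk)
  have hk1r : (1 : ℝ) ≤ k := by exact_mod_cast hk1
  set X : ℝ := Real.exp (Real.exp (c * Real.log k ^ (1 / 5 : ℝ))) with hX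
  have hX1 : 1 ≤ X := Real.one_le_exp (Real.exp_pos _).le
  set p : ℕ := (stepWord g k '' {n | n + k ≤ N}).ncard with hp
  have hset : (((range (N + 1 - k)).image (word g k) : Finset (Fin k → GaussianInt)) :
      Set (Fin k → GaussianInt)) = stepWord g k '' {n | n + k ≤ N} := by
    ext w
    simp only [coe_image, Set.mem_image, mem_coe, mem_range, Set.mem_ofPred_eq]
    constructor
    · rintro ⟨n, hn, rfl⟩; exact ⟨n, by omega, rfl⟩
    · rintro ⟨n, hn, rfl⟩; exact ⟨n, by omega, rfl⟩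
  have hcard : ((range (N + 1 - k)).image (word g k)).card = p := by
    rw [hp, ← hset, Set.ncard_coe_finset]
  have hkN : k ≤ N := by
    have : (k : ℝ) ≤ N := by nlinarith
    exact_mod_cast this
  have hp1 : 1 ≤ p := by
    rw [← hcard, Nat.one_le_iff_ne_zero, Finset.card_ne_zero, image_nonempty]
    exact ⟨0, by rw [mem_range]; omega⟩
  by_contra hcon
  rw [not_le] at hcon
  have hpN : k * p + k ≤ N := by
    have h1 : ((k * p + k : ℕ) : ℝ) ≤ N := by
      push_cast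
      nlinarith
    exact_mod_cast h1
  have hstep' : ∀ a b, a ≤ b → b ≤ N →
      ((g b - g a).norm : ℝ) ≤ (max D 1 * ((b - a : ℕ) : ℝ)) ^ 2 := by
    intro a b hab hb
    have h1 := dist_finite_path_le hstep a b hab hb
    have h3 := h1.trans (mul_le_mul_of_nonneg_right (le_max_left D 1) (Nat.cast_nonneg (b - a)))
    rw [← dist_sq, dist_comm]
    exact pow_le_pow_left₀ dist_nonneg h3 2
  obtain ⟨n, hn, hlt, hsum⟩ := popular (g := g) (N := N) (k := k) (Q := k) (B := p)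
    (D := max D 1) (le_max_right _ _) hk1 hp1 hinj (misses_of_gprime hmiss) hstep'
    hcard.le hpN
  have hdisp : disp (fun i => g (n + i)) 0 k = disp g n k := by
    unfold disp
    simp only [zero_add, add_zero]
  have hres := hk₂ k hkk₂ p hp1 (by
    refine hk₁ k hkk₁ (fun i => g (n + i)) ?_ ?_ _ (log_le_R D hk1 hp1) ?_ ?_
    · intro a ha b hb hab
      have h1 := hinj _ (by omega) _ (by omega) hab
      omega
    · intro a b hab hb
      have h1 := hstep' (n + a) (n + b) (by omega) (by omega)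
      have e : n + b - (n + a) = b - a := by omega
      rwa [e] at h1
    · intro q hq b
      rw [hdisp]
      rw [mem_primesMod] at hq
      exact hlt q hq.2.1 hq.2.2 (hq.1.2.trans hkN) b
    · rw [hdisp]
      exact hsum)
  exact absurd hres (not_le.2 hcon)

end Vale.Agent.P015.R2.H731
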