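import Vale.Agent.P015.R2.H222.Primes

/-! Levels: at every dyadic level most primes are good; density at all scales. -/

namespace Vale.Agent.P015.R2.H731

open Finset Vale.Agent.P015 Vale.Agent.P015.Cx Vale.Agent.P006.CLS Vale.Agent.P015.H222
  Filter Topology

/-- dyadic lower bound for the primes `1 mod 4` -/
theorem th_dyadic : ∃ N : ℕ, 1 ≤ N ∧ ∀ n : ℕ, N ≤ n → 1 / 8 * (n : ℝ) ≤ th n - th (n / 2) := by
  have h := Vale.Agent.PNT.thetaAP_div_tendsto (q := 4) (a := (1 : ZMod 4)) isUnit_one
  have htot : (Nat.totient 4 : ℝ) = 2 := by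
    have : Nat.totient 4 = 2 := by decide
    rw [this]; norm_num
  rw [htot] at h
  have hn : Tendsto (fun n : ℕ => (n : ℝ)) atTop atTop := tendsto_natCast_atTop_atTop
  have h2 := (h.comp hn).eventually (lt_mem_nhds (show (9 / 20 : ℝ) < (2 : ℝ)⁻¹ by norm_num))
  have h3 := (h.comp hn).eventually (gt_mem_nhds (show (2 : ℝ)⁻¹ < (11 / 20 : ℝ) by norm_num))
  obtain ⟨N, hN⟩ := Filter.eventually_atTop.mp (h2.and h3)
  refine ⟨2 * N + 2, by omega, fun n hn' => ?_⟩
  have h4 := (hN n (by omega)).1
  have h5 := (hN (n / 2) (by omega)).2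
  simp only [Function.comp] at h4 h5
  rw [← th_eq] at h4 h5
  have hn0 : (0 : ℝ) < n := by
    have : 0 < n := by omega
    exact_mod_cast this
  have hn20 : (0 : ℝ) < ((n / 2 : ℕ) : ℝ) := by
    have : 0 < n / 2 := by omega
    exact_mod_cast this
  rw [lt_div_iff₀ hn0] at h4
  rw [div_lt_iff₀ hn20] at h5
  have h6 : ((n / 2 : ℕ) : ℝ) ≤ n / 2 := Nat.cast_div_le
  linarith

/-- at every dyadic level most primes are good -/
theorem good_dyadic {k Q : ℕ} (hQk : Q ≤ k) {R : ℝ} (hR : 1 ≤ R) (hlog : Real.log Q ≤ R)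
    {S : Finset GaussianInt}
    (hlt : ∀ p ∈ primesMod 0 k, ∀ b : Bool, (S.image (phi p (root p b))).card < p)
    (hsum : ∑ p ∈ primesMod 0 k, ∑ b : Bool,
      Real.log p / ((p : ℝ) - (S.image (phi p (root p b))).card) ≤ R)
    (hth : 1 / 8 * (Q : ℝ) ≤ th Q - th (Q / 2)) :
    ∃ P : Finset ℕ, P ⊆ primesMod (Q / 2) Q ∧ 1 / (16 * R) * Q ≤ P.card ∧
      ∀ p ∈ P, ((S.image (phi p (root p true))).card : ℝ) ≤ (1 - 1 / (16 * R)) * p := by
  have hR0 : 0 < R := by linarith
  have hsub : primesMod (Q / 2) Q ⊆ primesMod 0 k := by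
    intro p hp
    rw [mem_primesMod] at *
    exact ⟨⟨by omega, hp.1.2.trans hQk⟩, hp.2⟩
  set good : ℕ → Prop := fun p => ((S.image (phi p (root p true))).card : ℝ) ≤ (1 - 1 / (16 * R)) * p
    with hgood
  classical
  set P := (primesMod (Q / 2) Q).filter good with hP
  set B := (primesMod (Q / 2) Q).filter (fun p => ¬ good p) with hB
  have hsplit0 : th Q = th (Q / 2) + ∑ p ∈ primesMod (Q / 2) Q, Real.log p := by
    unfold th
    rw [← Finset.sum_union]
    · refine Finset.sum_congr ?_ (fun _ _ => rfl)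
      ext p
      rw [Finset.mem_union, mem_primesMod, mem_primesMod, mem_primesMod]
      constructor
      · rintro ⟨⟨h1, h2⟩, h3⟩
        by_cases h4 : p ≤ Q / 2
        · exact Or.inl ⟨⟨h1, h4⟩, h3⟩
        · exact Or.inr ⟨⟨by omega, h2⟩, h3⟩
      · rintro (⟨⟨h1, h2⟩, h3⟩ | ⟨⟨h1, h2⟩, h3⟩)
        · exact ⟨⟨h1, by omega⟩, h3⟩
        · exact ⟨⟨by omega, h2⟩, h3⟩
    · rw [Finset.disjoint_left]
      intro p hp hp'
      rw [mem_primesMod] at hp hp'
      omega
  have hsplit : ∑ p ∈ primesMod (Q / 2) Q, Real.log p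
      = ∑ p ∈ P, Real.log p + ∑ p ∈ B, Real.log p :=
    (Finset.sum_filter_add_sum_filter_not (primesMod (Q / 2) Q) good _).symm
  have hBsum : ∑ p ∈ B, Real.log p ≤ (Q : ℝ) / 16 := by
    have h1 : ∀ p ∈ B, Real.log p ≤ (Q : ℝ) / (16 * R) * (∑ b : Bool,
        Real.log p / ((p : ℝ) - (S.image (phi p (root p b))).card)) := by
      intro p hp
      rw [hB, Finset.mem_filter] at hp
      obtain ⟨hp1, hp2⟩ := hp
      have hpk := hsub hp1
      have hpos : ∀ b : Bool, (0 : ℝ) < (p : ℝ) - (S.image (phi p (root p b))).card := by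
        intro b
        have := hlt p hpk b
        rw [sub_pos]
        exact_mod_cast this
      have hlogp : 0 ≤ Real.log p := Real.log_natCast_nonneg p
      rw [Fintype.sum_bool]
      have h2 : 0 ≤ Real.log p / ((p : ℝ) - (S.image (phi p (root p false))).card) :=
        div_nonneg hlogp (hpos false).le
      have h3 : (p : ℝ) - (S.image (phi p (root p true))).card < 1 / (16 * R) * p := by
        simp only [hgood, not_le] at hp2
        linarith only [hp2]
      have hpQ : (p : ℝ) ≤ Q := by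
        have := (mem_primesMod.mp hp1).1.2
        exact_mod_cast this
      have h4 : (p : ℝ) - (S.image (phi p (root p true))).card ≤ (Q : ℝ) / (16 * R) := by
        have : 1 / (16 * R) * (p : ℝ) ≤ 1 / (16 * R) * Q := mul_le_mul_of_nonneg_left hpQ (by positivity)
        have h5 : 1 / (16 * R) * (Q : ℝ) = (Q : ℝ) / (16 * R) := by ring
        linarith only [this, h3, h5]
      have hq0 : 0 ≤ (Q : ℝ) / (16 * R) := by positivity
      calc Real.log p = ((p : ℝ) - (S.image (phi p (root p true))).card) *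
            (Real.log p / ((p : ℝ) - (S.image (phi p (root p true))).card)) := by
            field_simp [(hpos true).ne']
        _ ≤ (Q : ℝ) / (16 * R) *
            (Real.log p / ((p : ℝ) - (S.image (phi p (root p true))).card)) :=
            mul_le_mul_of_nonneg_right h4 (div_nonneg hlogp (hpos true).le)
        _ ≤ _ := mul_le_mul_of_nonneg_left (by linarith only [h2]) hq0
    calc ∑ p ∈ B, Real.log p ≤ ∑ p ∈ B, (Q : ℝ) / (16 * R) * (∑ b : Bool,
        Real.log p / ((p : ℝ) - (S.image (phi p (root p b))).card)) := Finset.sum_le_sum h1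
      _ = (Q : ℝ) / (16 * R) * ∑ p ∈ B, (∑ b : Bool,
        Real.log p / ((p : ℝ) - (S.image (phi p (root p b))).card)) := by rw [Finset.mul_sum]
      _ ≤ (Q : ℝ) / (16 * R) * R := by
          refine mul_le_mul_of_nonneg_left (le_trans ?_ hsum) (by positivity)
          apply Finset.sum_le_sum_of_subset_of_nonneg
          · exact (Finset.filter_subset _ _).trans hsub
          · intro p hp _
            refine Finset.sum_nonneg (fun b _ => div_nonneg (Real.log_natCast_nonneg p) ?_)
            have := hlt p hp b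
            rw [sub_nonneg]
            exact_mod_cast this.le
      _ = (Q : ℝ) / 16 := by field_simp
  refine ⟨P, Finset.filter_subset _ _, ?_, fun p hp => (Finset.mem_filter.mp hp).2⟩
  have h5 : ∑ p ∈ P, Real.log p ≤ P.card * R := by
    rw [← nsmul_eq_mul]
    refine Finset.sum_le_card_nsmul P _ R (fun p hp => ?_)
    have hp1 := mem_primesMod.mp (Finset.mem_filter.mp hp).1
    refine le_trans (Real.log_le_log ?_ ?_) hlog
    · have := hp1.2.1.pos; exact_mod_cast this
    · exact_mod_cast hp1.1.2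
  have h6 : (Q : ℝ) / 16 ≤ P.card * R := by linarith only [h5, hBsum, hsplit, hsplit0, hth]
  have h7 : 1 / (16 * R) * (Q : ℝ) = (Q : ℝ) / 16 / R := by field_simp
  rw [h7, div_le_iff₀ hR0]
  exact h6

end Vale.Agent.P015.R2.H731
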