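import Vale.Agent.P015.R2.H731.Recur

/-! From the polynomial harmonic bound to the stretched exponential lower bounds. -/

namespace Vale.Agent.P015.R2.H731

open Finset Vale.Agent.P015 Vale.Agent.P015.Cx Filter Topology

theorem finite_distinct {N : ℕ} {g : ℕ → GaussianInt} {k : ℕ}
    (hmiss : ∀ π : GaussianInt, Prime π → π.norm ≤ k → ∃ a : GaussianInt, ∀ n ≤ N, ¬ π ∣ g n - a) :
    ∀ p : ℕ, p.Prime → p % 4 = 1 → p ≤ k → ∀ b : Bool, ∃ c : ZMod p,
        ∀ n ≤ N, phi p (root p b) (g n) ≠ c := by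
  intro p hp hp4 hpN b
  obtain ⟨π, hπ, hπn, hπd⟩ := exists_gprime hp (root_mul_root hp hp4 b)
  obtain ⟨c, hc⟩ := hmiss π hπ (by rw [hπn]; exact_mod_cast hpN)
  refine ⟨phi p (root p b) c, fun n hn h4 => hc n hn (hπd _ ?_)⟩
  rw [phi_sub, h4, sub_self]

/-- Long words do not recur. -/
theorem recur_of {C : ℝ} (hC : 1 ≤ C) (h : ∀ D : ℝ, HarmPoly C D) :
    ∀ D : ℝ, ∃ k₀ : ℕ, 1 ≤ k₀ ∧ ∀ k : ℕ, k₀ ≤ k → ∀ N : ℕ,
      (N : ℝ) ≤ Real.exp ((k : ℝ) ^ (1 / (4 * C))) →
      ∀ g : ℕ → GaussianInt,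
        (∀ m ≤ N, ∀ n ≤ N, g m = g n → m = n) →
        (∀ n < N, dist (GaussianInt.toComplex (g n)) (GaussianInt.toComplex (g (n + 1))) ≤ D) →
        (∀ π : GaussianInt, Prime π → π.norm ≤ k →
          ∃ a : GaussianInt, ∀ n ≤ N, ¬ π ∣ g n - a) →
        ∀ w : Fin k → GaussianInt, {n | n + k ≤ N ∧ stepWord g k n = w}.ncard < k := by
  intro D
  obtain ⟨k₁, hk₁1, hk₁⟩ := no_recur hC (h (max D 1))
  have hkr : Tendsto (fun k : ℕ => (k : ℝ)) atTop atTop := tendsto_natCast_atTop_atTop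
  -- `D exp (k ^ c) ≤ exp (k ^ (2 c))` eventually
  have hev : ∀ᶠ k : ℕ in atTop, max D 1 * Real.exp ((k : ℝ) ^ (1 / (4 * C))) ≤
      Real.exp ((k : ℝ) ^ (1 / (2 * C))) := by
    have h1 : Tendsto (fun k : ℕ => (k : ℝ) ^ (1 / (4 * C))) atTop atTop :=
      (tendsto_rpow_atTop (by positivity)).comp hkr
    filter_upwards [h1.eventually (eventually_ge_atTop (1 + Real.log (max D 1))),
      eventually_ge_atTop 1] with k hk hk1
    have hk0 : (1 : ℝ) ≤ k := by exact_mod_cast hk1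
    have hl : 0 ≤ Real.log (max D 1) := Real.log_nonneg (le_max_right _ _)
    set x := (k : ℝ) ^ (1 / (4 * C)) with hx
    have hx2 : (k : ℝ) ^ (1 / (2 * C)) = x * x := by
      rw [hx, ← Real.rpow_add (by linarith)]
      congr 1
      field_simp
      norm_num
    rw [hx2]
    have hD0 : (0 : ℝ) < max D 1 := lt_of_lt_of_le one_pos (le_max_right _ _)
    calc max D 1 * Real.exp x = Real.exp (Real.log (max D 1) + x) := by
          rw [Real.exp_add, Real.exp_log hD0]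
      _ ≤ Real.exp (x * x) := Real.exp_le_exp.2 (by nlinarith)
  obtain ⟨k₂, hk₂⟩ := Filter.eventually_atTop.1 hev
  refine ⟨max k₁ k₂, hk₁1.trans (le_max_left _ _), fun k hk N hN g hinj hstep hmiss w => ?_⟩
  have hkk₁ : k₁ ≤ k := (le_max_left _ _).trans hk
  have hk1 : 1 ≤ k := hk₁1.trans hkk₁
  set T : Finset ℕ := (range (N + 1 - k)).filter (fun n => stepWord g k n = w) with hT
  have hTset : (T : Set ℕ) = {n | n + k ≤ N ∧ stepWord g k n = w} := by
    ext n
    rw [hT, coe_filter, Set.mem_ofPred_eq, Set.mem_ofPred_eq, mem_range]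
    constructor
    · rintro ⟨h1, h2⟩; exact ⟨by omega, h2⟩
    · rintro ⟨h1, h2⟩; exact ⟨by omega, h2⟩
  rw [← hTset, Set.ncard_coe_finset]
  have hmem : ∀ t ∈ T, t + k ≤ N ∧ stepWord g k t = w := by
    intro t ht
    have : t ∈ (T : Set ℕ) := ht
    rw [hTset] at this
    exact this
  have hres := hk₁ k hkk₁ g T N
  refine hres ?_ ?_ ?_ ?_ ?_ ?_ ?_
  · refine le_trans (mul_le_mul_of_nonneg_left hN ?_) (hk₂ k ((le_max_right _ _).trans hk))
    exact le_trans zero_le_one (le_max_right _ _)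
  · intro t _ s hs
    have := (hmem s hs).1
    omega
  · intro t ht s hs
    rw [(hmem t ht).2, (hmem s hs).2]
  · intro t ht s hs hts
    have h1 := (hmem t ht).1
    have h2 := (hmem s hs).1
    exact hinj t (by omega) s (by omega) hts
  · intro t ht a ha b hb hab
    have h1 := (hmem t ht).1
    have := hinj (t + a) (by omega) (t + b) (by omega) hab
    omega
  · intro t ht s hs _ n _ hn
    have h2 := (hmem s hs).1
    exact hstep n (by omega)
  · intro p hp hp4 hpk b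
    obtain ⟨c, hc⟩ := finite_distinct hmiss p hp hp4 hpk b
    refine ⟨c, fun t ht a ha => hc (t + a) ?_⟩
    have h1 := (hmem t ht).1
    omega

/-- Finite complexity bound. -/
theorem finite_of {C : ℝ} (hC : 1 ≤ C) (h : ∀ D : ℝ, HarmPoly C D) :
    ∀ D : ℝ, ∃ k₀ : ℕ, 1 ≤ k₀ ∧ ∀ k : ℕ, k₀ ≤ k → ∀ N : ℕ,
      2 * k * Real.exp ((k : ℝ) ^ (1 / (8 * C))) ≤ N →
      ∀ g : ℕ → GaussianInt,
        (∀ m ≤ N, ∀ n ≤ N, g m = g n → m = n) →
        (∀ n < N, dist (GaussianInt.toComplex (g n)) (GaussianInt.toComplex (g (n + 1))) ≤ D) →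
        (∀ π : GaussianInt, Prime π → π.norm ≤ k →
          ∃ a : GaussianInt, ∀ n ≤ N, ¬ π ∣ g n - a) →
        Real.exp ((k : ℝ) ^ (1 / (8 * C))) ≤ ((stepWord g k '' {n | n + k ≤ N}).ncard : ℝ) := by
  intro D
  obtain ⟨k₁, hk₁1, hk₁⟩ := recur_of hC h D
  have hkr : Tendsto (fun k : ℕ => (k : ℝ)) atTop atTop := tendsto_natCast_atTop_atTop
  have hev : ∀ᶠ k : ℕ in atTop, 3 * k * Real.exp ((k : ℝ) ^ (1 / (8 * C))) ≤
      Real.exp ((k : ℝ) ^ (1 / (4 * C))) := by
    have h1 : Tendsto (fun k : ℕ => (k : ℝ) ^ (1 / (8 * C))) atTop atTop :=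
      (tendsto_rpow_atTop (by positivity)).comp hkr
    have hlog : ∀ᶠ k : ℕ in atTop, Real.log (k : ℝ) ≤ (k : ℝ) ^ (1 / (8 * C)) := by
      have h1 := (isLittleO_log_rpow_atTop (show 0 < 1 / (8 * C) by positivity)).bound
        (show (0 : ℝ) < 1 by norm_num)
      have h2 := hkr.eventually h1
      filter_upwards [h2, eventually_ge_atTop 1] with k hk hk1
      have hk0 : (1 : ℝ) ≤ k := by exact_mod_cast hk1
      rw [one_mul, Real.norm_of_nonneg (Real.log_nonneg hk0),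
        Real.norm_of_nonneg (Real.rpow_nonneg (by linarith) _)] at hk
      exact hk
    filter_upwards [h1.eventually (eventually_ge_atTop (4 : ℝ)), hlog,
      eventually_ge_atTop 1] with k hk hl hk1
    have hk0 : (1 : ℝ) ≤ k := by exact_mod_cast hk1
    set x := (k : ℝ) ^ (1 / (8 * C)) with hx
    have hx2 : (k : ℝ) ^ (1 / (4 * C)) = x * x := by
      rw [hx, ← Real.rpow_add (by linarith)]
      congr 1
      field_simp
      norm_num
    rw [hx2]
    have hl3 : Real.log 3 ≤ 2 := by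
      have := Real.log_le_sub_one_of_pos (show (0 : ℝ) < 3 by norm_num)
      linarith
    calc 3 * k * Real.exp x = Real.exp (Real.log 3 + Real.log k + x) := by
          rw [Real.exp_add, Real.exp_add, Real.exp_log (by norm_num), Real.exp_log (by linarith)]
      _ ≤ Real.exp (x * x) := Real.exp_le_exp.2 (by nlinarith)
  obtain ⟨k₂, hk₂⟩ := Filter.eventually_atTop.1 hev
  refine ⟨max k₁ k₂, hk₁1.trans (le_max_left _ _), fun k hk N hN g hinj hstep hmiss => ?_⟩
  have hkk₁ : k₁ ≤ k := (le_max_left _ _).trans hk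
  have hk1 : 1 ≤ k := hk₁1.trans hkk₁
  have hk1r : (1 : ℝ) ≤ k := by exact_mod_cast hk1
  set X := Real.exp ((k : ℝ) ^ (1 / (8 * C))) with hX
  have hX1 : 1 ≤ X := Real.one_le_exp (by positivity)
  set N' : ℕ := ⌈2 * k * X⌉₊ with hN'
  have hN'N : N' ≤ N := Nat.ceil_le.2 hN
  have hN'l : 2 * k * X ≤ N' := Nat.le_ceil _
  have hN'u : (N' : ℝ) ≤ 3 * k * X := by
    have := Nat.ceil_lt_add_one (show 0 ≤ 2 * k * X by positivity)
    rw [← hN'] at this
    nlinarith
  have hrec := hk₁ k hkk₁ N' (hN'u.trans (hk₂ k ((le_max_right _ _).trans hk))) g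
    (fun m hm n hn => hinj m (hm.trans hN'N) n (hn.trans hN'N))
    (fun n hn => hstep n (by omega))
    (fun π hπ hπn => (hmiss π hπ hπn).imp fun a ha n hn => ha n (hn.trans hN'N))
  set S : Finset ℕ := range (N' + 1 - k) with hS
  have hkN' : k ≤ N' := by
    have : (k : ℝ) ≤ N' := by nlinarith
    exact_mod_cast this
  have hcardS : (S.card : ℝ) = N' + 1 - k := by
    rw [hS, card_range, Nat.cast_sub (by omega)]; push_cast; ring
  have hmap : ∀ n ∈ S, stepWord g k n ∈ S.image (stepWord g k) := fun n hn => mem_image_of_mem _ hn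
  have hfib : ∀ w ∈ S.image (stepWord g k), (S.filter (fun n => stepWord g k n = w)).card ≤ k := by
    intro w _
    have h1 := hrec w
    have h2 : ((S.filter (fun n => stepWord g k n = w) : Finset ℕ) : Set ℕ) =
        {n | n + k ≤ N' ∧ stepWord g k n = w} := by
      ext n
      rw [coe_filter, Set.mem_ofPred_eq, Set.mem_ofPred_eq, hS, mem_range]
      constructor
      · rintro ⟨h1, h2⟩; exact ⟨by omega, h2⟩
      · rintro ⟨h1, h2⟩; exact ⟨by omega, h2⟩
    rw [← h2, Set.ncard_coe_finset] at h1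
    exact h1.le
  have hcount := Finset.card_le_mul_card_image_of_maps_to hmap k hfib
  have hsub : ((S.image (stepWord g k) : Finset (Fin k → GaussianInt)) :
      Set (Fin k → GaussianInt)) ⊆ stepWord g k '' {n | n + k ≤ N} := by
    intro w hw
    rw [coe_image] at hw
    obtain ⟨n, hn, rfl⟩ := hw
    rw [hS, mem_coe, mem_range] at hn
    exact ⟨n, by rw [Set.mem_ofPred_eq]; omega, rfl⟩
  have hfin : (stepWord g k '' {n | n + k ≤ N}).Finite := by
    refine Set.Finite.image _ ((Set.finite_le_nat N).subset ?_)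
    intro n hn
    rw [Set.mem_ofPred_eq] at hn ⊢
    omega
  have hle := Set.ncard_le_ncard hsub hfin
  rw [Set.ncard_coe_finset] at hle
  have h1 : (S.card : ℝ) ≤ k * ((S.image (stepWord g k)).card : ℝ) := by exact_mod_cast hcount
  have h2 : ((S.image (stepWord g k)).card : ℝ) ≤
      ((stepWord g k '' {n | n + k ≤ N}).ncard : ℝ) := by exact_mod_cast hle
  have h3 : (k : ℝ) * X ≤ k * ((S.image (stepWord g k)).card : ℝ) := by
    refine le_trans ?_ h1
    rw [hcardS]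
    nlinarith
  exact (le_of_mul_le_mul_left h3 (by linarith)).trans h2

/-- Infinite walks. -/
theorem infinite_of {C : ℝ} (hC : 1 ≤ C) (h : ∀ D : ℝ, HarmPoly C D) :
    ∀ D : ℝ, ∃ k₀ : ℕ, ∀ k : ℕ, k₀ ≤ k →
      ∀ γ : ℕ → {z : GaussianInt // Prime z}, IsInfinitePath D γ → ∀ n₀ : ℕ,
        Real.exp ((k : ℝ) ^ (1 / (8 * C))) ≤ (complexity (fun n => (γ n).1) n₀ k : ℝ) := by
  intro D
  obtain ⟨k₁, hk₁1, hk₁⟩ := finite_of hC h D
  refine ⟨k₁, fun k hk γ hγ n₀ => ?_⟩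
  set N : ℕ := ⌈2 * k * Real.exp ((k : ℝ) ^ (1 / (8 * C)))⌉₊ with hN
  obtain ⟨n₁, hn₁, hbig⟩ := finite_small D hγ k n₀
  have hres := hk₁ k hk N (Nat.le_ceil _) (fun n => (γ (n₁ + n)).1) (by
      intro a _ b _ hab
      have h1 := hγ.1 (Subtype.ext hab)
      omega) (fun n _ => (hγ.2 (n₁ + n)).2) (by
      intro π hπ hπn
      refine ⟨0, fun n _ hd => ?_⟩
      rw [sub_zero] at hd
      have h1 := (Prime.associated_of_dvd hπ (γ (n₁ + n)).2 hd)
      have h2 := hbig (n₁ + n) (by omega)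
      have h3 : π.norm = ((γ (n₁ + n)).1).norm := by
        obtain ⟨u, hu⟩ := h1
        rw [← hu, Zsqrtd.norm_mul, (Zsqrtd.norm_eq_one_iff' (by norm_num) _).2 u.isUnit, mul_one]
      have hk1 : (1 : ℤ) ≤ k := by exact_mod_cast hk₁1.trans hk
      rw [← h3] at h2
      nlinarith)
  refine hres.trans ?_
  have hsub : stepWord (fun n => (γ (n₁ + n)).1) k '' {n | n + k ≤ N} ⊆
      stepWord (fun n => (γ n).1) k '' Set.Ici n₀ := by
    rintro w ⟨n, -, rfl⟩
    refine ⟨n₁ + n, Set.mem_Ici.2 (by omega), ?_⟩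
    funext i
    simp only [stepWord, ← add_assoc]
  have := Set.ncard_le_ncard hsub (finite_words hγ k n₀)
  rw [complexity]
  exact_mod_cast this

/-- Translates of one walk do not recur. -/
theorem translates_of {C : ℝ} (hC : 1 ≤ C) (h : ∀ D : ℝ, HarmPoly C D) :
    ∀ D : ℝ, ∃ k₀ : ℕ, 1 ≤ k₀ ∧ ∀ k : ℕ, k₀ ≤ k → ∀ f : ℕ → GaussianInt,
      (∀ a ≤ k, ∀ b ≤ k, f a = f b → a = b) →
      (∀ n < k, dist (GaussianInt.toComplex (f n)) (GaussianInt.toComplex (f (n + 1))) ≤ D) →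
      ∀ X : Finset GaussianInt,
        (∀ z ∈ X, ∀ w ∈ X, dist (GaussianInt.toComplex z) (GaussianInt.toComplex w) ≤
          Real.exp ((k : ℝ) ^ (1 / (2 * C)))) →
        (∀ π : GaussianInt, Prime π → π.norm ≤ k →
          ∃ a : GaussianInt, ∀ z ∈ X, ∀ n ≤ k, ¬ π ∣ z + f n - a) →
        X.card < k := by
  intro D
  obtain ⟨k₀, hk₀1, hk₀⟩ := no_translates hC (h (max D 1))
  refine ⟨k₀, hk₀1, fun k hk f hinj hstep X hX hmiss => ?_⟩
  refine hk₀ k hk f hinj ?_ X ?_ ?_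
  · intro a b hab hb
    have h1 : dist (GaussianInt.toComplex (f a)) (GaussianInt.toComplex (f b)) ≤
        max D 1 * ((b - a : ℕ) : ℝ) := by
      induction b, hab using Nat.le_induction with
      | base => simp
      | succ b hab ih =>
        have h1 := hstep b (by omega)
        have h2 := dist_triangle (GaussianInt.toComplex (f a)) (GaussianInt.toComplex (f b))
          (GaussianInt.toComplex (f (b + 1)))
        have h3 : ((b + 1 - a : ℕ) : ℝ) = ((b - a : ℕ) : ℝ) + 1 := by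
          rw [Nat.sub_add_comm hab]; push_cast; ring
        have h4 := ih (by omega)
        have h5 := le_max_left D 1
        rw [h3]
        linarith
    rw [← dist_sq, dist_comm]
    exact pow_le_pow_left₀ dist_nonneg h1 2
  · intro z hz w hw
    rw [← dist_sq]
    exact pow_le_pow_left₀ dist_nonneg (hX z hz w hw) 2
  · intro p hp hp4 hpk b
    obtain ⟨π, hπ, hπn, hπd⟩ := exists_gprime hp (root_mul_root hp hp4 b)
    obtain ⟨c, hc⟩ := hmiss π hπ (by rw [hπn]; exact_mod_cast hpk)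
    refine ⟨phi p (root p b) c, fun x hx t ht h4 => hc x hx t ht (hπd _ ?_)⟩
    rw [phi_sub, h4, sub_self]

/-- **The theorem**, from the polynomial harmonic bound. -/
theorem main_of (h : ∃ C : ℝ, 1 ≤ C ∧ ∀ D : ℝ, HarmPoly C D) : ∃ c : ℝ, 0 < c ∧
      (∀ D : ℝ, ∃ k₀ : ℕ, ∀ k : ℕ, k₀ ≤ k →
        ∀ γ : ℕ → {z : GaussianInt // Prime z}, IsInfinitePath D γ → ∀ n₀ : ℕ,
          Real.exp ((k : ℝ) ^ c) ≤ (complexity (fun n => (γ n).1) n₀ k : ℝ)) ∧
      (∀ D : ℝ, ∃ k₀ : ℕ, ∀ k : ℕ, k₀ ≤ k → ∀ N : ℕ,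
        2 * k * Real.exp ((k : ℝ) ^ c) ≤ N →
        ∀ g : ℕ → GaussianInt,
          (∀ m ≤ N, ∀ n ≤ N, g m = g n → m = n) →
          (∀ n < N, dist (GaussianInt.toComplex (g n)) (GaussianInt.toComplex (g (n + 1))) ≤ D) →
          (∀ π : GaussianInt, Prime π → π.norm ≤ k →
            ∃ a : GaussianInt, ∀ n ≤ N, ¬ π ∣ g n - a) →
          Real.exp ((k : ℝ) ^ c) ≤ ((stepWord g k '' {n | n + k ≤ N}).ncard : ℝ)) ∧
      ∀ D : ℝ, ∃ k₀ : ℕ, ∀ k : ℕ, k₀ ≤ k → ∀ f : ℕ → GaussianInt,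
        (∀ m ≤ k, ∀ n ≤ k, f m = f n → m = n) →
        (∀ n < k, dist (GaussianInt.toComplex (f n)) (GaussianInt.toComplex (f (n + 1))) ≤ D) →
        ∀ X : Finset GaussianInt,
          (∀ z ∈ X, ∀ w ∈ X, dist (GaussianInt.toComplex z) (GaussianInt.toComplex w) ≤
            Real.exp ((k : ℝ) ^ c)) →
          (∀ π : GaussianInt, Prime π → π.norm ≤ k →
            ∃ a : GaussianInt, ∀ z ∈ X, ∀ n ≤ k, ¬ π ∣ z + f n - a) →
          X.card < k := by
  obtain ⟨C, hC, h⟩ := h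
  refine ⟨1 / (8 * C), by positivity, infinite_of hC h, ?_, ?_⟩
  · intro D
    obtain ⟨k₀, -, hk₀⟩ := finite_of hC h D
    exact ⟨k₀, hk₀⟩
  · intro D
    obtain ⟨k₀, hk₀1, hk₀⟩ := translates_of hC h D
    refine ⟨k₀, fun k hk f hinj hstep X hX => hk₀ k hk f hinj hstep X
      (fun z hz w hw => (hX z hz w hw).trans (Real.exp_le_exp.2 ?_))⟩
    have hk1 : (1 : ℝ) ≤ k := by exact_mod_cast hk₀1.trans hk
    refine Real.rpow_le_rpow_of_exponent_le hk1 ?_
    apply one_div_le_one_div_of_le (by positivity)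
    linarith

end Vale.Agent.P015.R2.H731
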