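import Vale.Agent.P015.R2.H731.Fin

/-! From the polynomial harmonic bound to: long words do not recur. -/

namespace Vale.Agent.P015.R2.H731

open Finset Vale.Agent.P015 Vale.Agent.P015.Cx Filter Topology

/-- The polynomial harmonic bound: a `D`-path of `k + 1` points whose missed classes satisfy the
harmonic bound `R` has `k < R ^ C`. -/
def HarmPoly (C D : ℝ) : Prop :=
  ∃ k₀ : ℕ, ∀ k : ℕ, k₀ ≤ k → ∀ g : ℕ → GaussianInt,
    (∀ a ≤ k, ∀ b ≤ k, g a = g b → a = b) →
    (∀ a b, a ≤ b → b ≤ k → ((g b - g a).norm : ℝ) ≤ (D * ((b - a : ℕ) : ℝ)) ^ 2) →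
    ∀ R : ℝ, Real.log k ≤ R →
    (∀ p ∈ primesMod 0 k, ∀ b : Bool, ((disp g 0 k).image (phi p (root p b))).card < p) →
    ∑ p ∈ primesMod 0 k, ∑ b : Bool,
      Real.log p / ((p : ℝ) - ((disp g 0 k).image (phi p (root p b))).card) ≤ R →
    (k : ℝ) < R ^ C

/-- The sieve step for translates of one path. -/
theorem harm_translates {f : ℕ → GaussianInt} {k : ℕ} {X : Finset GaussianInt} {M : ℝ}
    (hM : 1 ≤ M) (hk : 1 ≤ k) (hX : k ≤ X.card)
    (hdiam : ∀ z ∈ X, ∀ w ∈ X, ((z - w).norm : ℝ) ≤ M ^ 2)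
    (hmiss : ∀ p : ℕ, p.Prime → p % 4 = 1 → p ≤ k → ∀ b : Bool, ∃ c : ZMod p,
      ∀ x ∈ X, ∀ t ≤ k, phi p (root p b) (x + f t) ≠ c) :
    (∀ p ∈ primesMod 0 k, ∀ b : Bool, ((disp f 0 k).image (phi p (root p b))).card < p) ∧
      ∑ p ∈ primesMod 0 k, ∑ b : Bool,
        Real.log p / ((p : ℝ) - ((disp f 0 k).image (phi p (root p b))).card) ≤
        2 * Real.log 4 + 2 * Real.log M := by
  have hXne : X.Nonempty := by
    rw [← Finset.card_pos]; omega
  have hdisj : ∀ p : ℕ, p.Prime → p % 4 = 1 → p ≤ k → ∀ b : Bool,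
      ((X.image (phi p (root p b))).card : ℝ) ≤
        (p : ℝ) - ((disp f 0 k).image (phi p (root p b))).card := by
    intro p hp hp4 hpk b
    have : Fact p.Prime := ⟨hp⟩
    obtain ⟨c, hc⟩ := hmiss p hp hp4 hpk b
    have h1 : Disjoint ((X.image (phi p (root p b))).image
          (fun a => c - a - phi p (root p b) (f 0)))
        ((disp f 0 k).image (phi p (root p b))) := by
      rw [Finset.disjoint_left]
      intro a ha ha2
      rw [mem_image] at ha ha2
      obtain ⟨a1, ha1, rfl⟩ := ha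
      rw [mem_image] at ha1
      obtain ⟨x, hx, rfl⟩ := ha1
      obtain ⟨s, hs, hs2⟩ := ha2
      rw [disp, mem_image] at hs
      obtain ⟨i, hi, rfl⟩ := hs
      rw [mem_range] at hi
      rw [zero_add, phi_sub] at hs2
      refine hc x hx i (by omega) ?_
      rw [phi_add]
      linear_combination hs2
    have h2 : ((X.image (phi p (root p b))).image
          (fun a => c - a - phi p (root p b) (f 0))).card =
        (X.image (phi p (root p b))).card := by
      refine Finset.card_image_of_injective _ ?_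
      intro a a' h
      simpa using h
    have h3 := Finset.card_union_of_disjoint h1
    have h4 := Finset.card_le_univ (((X.image (phi p (root p b))).image
          (fun a => c - a - phi p (root p b) (f 0))) ∪
        ((disp f 0 k).image (phi p (root p b))))
    rw [ZMod.card, h3, h2] at h4
    have h5 : ((X.image (phi p (root p b))).card : ℝ) +
        ((disp f 0 k).image (phi p (root p b))).card ≤ (p : ℝ) := by exact_mod_cast h4
    linarith
  refine ⟨?_, ?_⟩
  · intro p hp b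
    rw [mem_primesMod] at hp
    have h1 := hdisj p hp.2.1 hp.2.2 hp.1.2 b
    have h2 : (0 : ℝ) < ((X.image (phi p (root p b))).card : ℝ) := by
      exact_mod_cast (hXne.image _).card_pos
    have h3 : (((disp f 0 k).image (phi p (root p b))).card : ℝ) < p := by linarith
    exact_mod_cast h3
  · have hls := larger_sieve (primesMod 0 k) (fun p hp => (mem_primesMod.1 hp).2) X hXne hM hdiam
    have hcardX : (k : ℝ) ≤ X.card := by exact_mod_cast hX
    have hkpos : (0 : ℝ) < k := by exact_mod_cast hk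
    have h4 : (∑ p ∈ primesMod 0 k, 2 * Real.log p) / X.card ≤ 2 * Real.log 4 := by
      rw [div_le_iff₀ (lt_of_lt_of_le hkpos hcardX)]
      have h1 : ∑ p ∈ primesMod 0 k, 2 * Real.log p ≤ 2 * (Real.log 4 * k) := by
        rw [← Finset.mul_sum]
        have h3 := th_upper k
        unfold th at h3
        linarith
      have hl4 : 0 < Real.log 4 := Real.log_pos (by norm_num)
      nlinarith
    refine le_trans ?_ (hls.trans (add_le_add h4 le_rfl))
    refine Finset.sum_le_sum fun p hp => Finset.sum_le_sum fun b _ => ?_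
    rw [mem_primesMod] at hp
    have hlp : 0 ≤ Real.log p := Real.log_natCast_nonneg _
    have h2 : (0 : ℝ) < ((X.image (phi p (root p b))).card : ℝ) := by
      exact_mod_cast (hXne.image _).card_pos
    exact div_le_div_of_nonneg_left hlp h2 (hdisj p hp.2.1 hp.2.2 hp.1.2 b)

/-- **No recurrence of translates.** -/
theorem no_translates {C D : ℝ} (hC : 1 ≤ C) (h : HarmPoly C D) :
    ∃ k₀ : ℕ, 1 ≤ k₀ ∧ ∀ k : ℕ, k₀ ≤ k → ∀ f : ℕ → GaussianInt,
      (∀ a ≤ k, ∀ b ≤ k, f a = f b → a = b) →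
      (∀ a b, a ≤ b → b ≤ k → ((f b - f a).norm : ℝ) ≤ (D * ((b - a : ℕ) : ℝ)) ^ 2) →
      ∀ X : Finset GaussianInt,
      (∀ z ∈ X, ∀ w ∈ X, ((z - w).norm : ℝ) ≤
        (Real.exp ((k : ℝ) ^ (1 / (2 * C)))) ^ 2) →
      (∀ p : ℕ, p.Prime → p % 4 = 1 → p ≤ k → ∀ b : Bool, ∃ c : ZMod p,
        ∀ x ∈ X, ∀ t ≤ k, phi p (root p b) (x + f t) ≠ c) →
      X.card < k := by
  obtain ⟨k₁, hk₁⟩ := h
  set c : ℝ := 1 / (2 * C) with hc
  have hc0 : 0 < c := by positivity
  have hkr : Tendsto (fun k : ℕ => (k : ℝ)) atTop atTop := tendsto_natCast_atTop_atTop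
  have hkc : Tendsto (fun k : ℕ => (k : ℝ) ^ c) atTop atTop :=
    (tendsto_rpow_atTop hc0).comp hkr
  -- log k ≤ k ^ c eventually
  have hlog : ∀ᶠ k : ℕ in atTop, Real.log (k : ℝ) ≤ (k : ℝ) ^ c := by
    have h1 := (isLittleO_log_rpow_atTop hc0).bound (show (0 : ℝ) < 1 by norm_num)
    have h2 := hkr.eventually h1
    filter_upwards [h2, eventually_ge_atTop 1] with k hk hk1
    have hk0 : (1 : ℝ) ≤ k := by exact_mod_cast hk1
    rw [one_mul, Real.norm_of_nonneg (Real.log_nonneg hk0),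
      Real.norm_of_nonneg (Real.rpow_nonneg (by linarith) _)] at hk
    exact hk
  have hsq : Tendsto (fun k : ℕ => (k : ℝ) ^ (1 / 2 : ℝ)) atTop atTop :=
    (tendsto_rpow_atTop (by norm_num)).comp hkr
  obtain ⟨k₂, hk₂⟩ := Filter.eventually_atTop.1
    ((hlog.and (hkc.eventually (eventually_ge_atTop (2 * Real.log 4)))).and
      ((hsq.eventually (eventually_ge_atTop ((4 : ℝ) ^ C))).and (eventually_ge_atTop 1)))
  refine ⟨max (max k₁ k₂) 1, le_max_right _ _, fun k hk f hinj hstep X hdiam hmiss => ?_⟩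
  have hkk₁ : k₁ ≤ k := (le_max_left _ _).trans ((le_max_left _ _).trans hk)
  obtain ⟨⟨hl, hk4⟩, hks, hk1⟩ := hk₂ k ((le_max_right _ _).trans ((le_max_left _ _).trans hk))
  have hk0 : (1 : ℝ) ≤ k := by exact_mod_cast hk1
  by_contra hcon
  rw [not_lt] at hcon
  have hkc0 : 0 ≤ (k : ℝ) ^ c := by positivity
  obtain ⟨h1, h2⟩ := harm_translates (M := Real.exp ((k : ℝ) ^ c)) (Real.one_le_exp hkc0) hk1 hcon
    hdiam hmiss
  rw [Real.log_exp] at h2
  have h3 := hk₁ k hkk₁ f hinj hstep (4 * (k : ℝ) ^ c) (by linarith) h1 (by linarith)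
  have h4 : (4 * (k : ℝ) ^ c) ^ C ≤ k := by
    rw [Real.mul_rpow (by norm_num) hkc0, ← Real.rpow_mul (by linarith)]
    have e : c * C = 1 / 2 := by rw [hc]; field_simp
    rw [e]
    have h5 : (k : ℝ) ^ (1 / 2 : ℝ) * (k : ℝ) ^ (1 / 2 : ℝ) = k := by
      rw [← Real.rpow_add (by linarith)]; norm_num
    calc (4 : ℝ) ^ C * (k : ℝ) ^ (1 / 2 : ℝ) ≤ (k : ℝ) ^ (1 / 2 : ℝ) * (k : ℝ) ^ (1 / 2 : ℝ) :=
          mul_le_mul_of_nonneg_right hks (by positivity)
      _ = k := h5
  linarith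

/-- **Long words do not recur, finite form.** -/
theorem no_recur {C D : ℝ} (hC : 1 ≤ C) (h : HarmPoly C (max D 1)) :
    ∃ k₀ : ℕ, 1 ≤ k₀ ∧ ∀ k : ℕ, k₀ ≤ k → ∀ (g : ℕ → GaussianInt) (T : Finset ℕ) (N : ℕ),
      (max D 1 * (N : ℝ)) ≤ Real.exp ((k : ℝ) ^ (1 / (2 * C))) →
      (∀ t ∈ T, ∀ s ∈ T, s ≤ t + N) →
      (∀ t ∈ T, ∀ s ∈ T, stepWord g k t = stepWord g k s) →
      (∀ t ∈ T, ∀ s ∈ T, g t = g s → t = s) →
      (∀ t ∈ T, ∀ a ≤ k, ∀ b ≤ k, g (t + a) = g (t + b) → a = b) →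
      (∀ t ∈ T, ∀ s ∈ T, t ≤ s → ∀ n, t ≤ n → n < s + k →
        dist (GaussianInt.toComplex (g n)) (GaussianInt.toComplex (g (n + 1))) ≤ D) →
      (∀ p : ℕ, p.Prime → p % 4 = 1 → p ≤ k → ∀ b : Bool, ∃ c : ZMod p,
        ∀ t ∈ T, ∀ a ≤ k, phi p (root p b) (g (t + a)) ≠ c) →
      T.card < k := by
  obtain ⟨k₀, hk₀1, hk₀⟩ := no_translates hC h
  refine ⟨k₀, hk₀1, fun k hk g T N hN hT hword hinj hinj2 hstep hmiss => ?_⟩
  have hk1 : 1 ≤ k := hk₀1.trans hk
  rcases T.eq_empty_or_nonempty with hTe | ⟨n, hn⟩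
  · rw [hTe, card_empty]; omega
  have hdist : ∀ t ∈ T, ∀ s ∈ T, t ≤ s → ∀ a b : ℕ, t ≤ a → a ≤ b → b ≤ s + k →
      dist (GaussianInt.toComplex (g a)) (GaussianInt.toComplex (g b)) ≤
        max D 1 * ((b - a : ℕ) : ℝ) := by
    intro t ht s hs hts a b hta hab
    induction b, hab using Nat.le_induction with
    | base => intro _; simp
    | succ b hab ih =>
      intro hb
      have h1 := hstep t ht s hs hts b (by omega) (by omega)
      have h2 := dist_triangle (GaussianInt.toComplex (g a)) (GaussianInt.toComplex (g b))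
        (GaussianInt.toComplex (g (b + 1)))
      have h3 : ((b + 1 - a : ℕ) : ℝ) = ((b - a : ℕ) : ℝ) + 1 := by
        rw [Nat.sub_add_comm hab]; push_cast; ring
      have h4 := ih (by omega)
      have h5 := le_max_left D 1
      rw [h3]
      linarith
  have hD0 : (0 : ℝ) ≤ max D 1 := le_trans zero_le_one (le_max_right _ _)
  have hnorm : ∀ t ∈ T, ∀ s ∈ T, t ≤ s → ∀ a b : ℕ, t ≤ a → a ≤ b → b ≤ s + k →
      ((g b - g a).norm : ℝ) ≤ (max D 1 * ((b - a : ℕ) : ℝ)) ^ 2 := by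
    intro t ht s hs hts a b hta hab hb
    have h1 := hdist t ht s hs hts a b hta hab hb
    rw [← dist_sq, dist_comm]
    exact pow_le_pow_left₀ dist_nonneg h1 2
  have hcardT : (T.image g).card = T.card := by
    refine Finset.card_image_of_injOn ?_
    intro a ha b hb hab
    exact hinj a ha b hb hab
  rw [← hcardT]
  refine hk₀ k hk (fun i => g (n + i) - g n) ?_ ?_ (T.image g) ?_ ?_
  · intro a ha b hb hab
    exact hinj2 n hn a ha b hb (sub_left_injective hab)
  · intro a b hab hb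
    have h1 := hnorm n hn n hn le_rfl (n + a) (n + b) (by omega) (by omega) (by omega)
    have e : n + b - (n + a) = b - a := by omega
    rw [e] at h1
    have e2 : g (n + b) - g n - (g (n + a) - g n) = g (n + b) - g (n + a) := by ring
    rw [e2]
    exact h1
  · have key : ∀ a ∈ T, ∀ b ∈ T, a ≤ b →
        ((g b - g a).norm : ℝ) ≤ (Real.exp ((k : ℝ) ^ (1 / (2 * C)))) ^ 2 := by
      intro a ha b hb hab
      refine (hnorm a ha b hb hab a b le_rfl hab (by omega)).trans ?_
      refine pow_le_pow_left₀ (by positivity) ?_ 2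
      refine le_trans (mul_le_mul_of_nonneg_left ?_ hD0) hN
      have := hT a ha b hb
      exact_mod_cast (show b - a ≤ N by omega)
    intro z hz w hw
    rw [mem_image] at hz hw
    obtain ⟨a, ha, rfl⟩ := hz
    obtain ⟨b, hb, rfl⟩ := hw
    rcases le_total a b with hab | hab
    · rw [norm_sub_comm']
      exact key a ha b hb hab
    · exact key b hb a ha hab
  · intro p hp hp4 hpk b
    obtain ⟨c, hc⟩ := hmiss p hp hp4 hpk b
    refine ⟨c, fun x hx t ht => ?_⟩
    rw [mem_image] at hx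
    obtain ⟨s, hs, rfl⟩ := hx
    have h1 : word g k n = word g k s := hword n hn s hs
    have h2 := disp_eq_of_word_eq h1 (t := t) ht
    have e : g s + (g (n + t) - g n) = g (s + t) := by
      rw [h2]; ring
    rw [e]
    exact hc s hs t ht

end Vale.Agent.P015.R2.H731
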