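import Vale.Agent.P015.R2.H731.Lev
import Vale.Agent.P015.R2.H222.Final

/-! From a walk with a small harmonic bound to one set that is one-dimensional at all scales and
misses many classes at every dyadic level. -/

namespace Vale.Agent.P015.R2.H731

open Finset Vale.Agent.P015 Vale.Agent.P015.Cx Vale.Agent.P006.CLS Vale.Agent.P015.H222
  Filter Topology

theorem setup_walk (D : ℝ) : ∃ A : ℝ, ∀ R : ℝ, A ≤ R → ∀ k : ℕ, Real.log k ≤ R →
    ∀ g : ℕ → GaussianInt,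
    (∀ a ≤ k, ∀ b ≤ k, g a = g b → a = b) →
    (∀ a b, a ≤ b → b ≤ k → ((g b - g a).norm : ℝ) ≤ (D * ((b - a : ℕ) : ℝ)) ^ 2) →
    (∀ p ∈ primesMod 0 k, ∀ b : Bool, ((disp g 0 k).image (phi p (root p b))).card < p) →
    ∑ p ∈ primesMod 0 k, ∑ b : Bool,
      Real.log p / ((p : ℝ) - ((disp g 0 k).image (phi p (root p b))).card) ≤ R →
    ∀ K : ℕ, R ≤ K → (2 * K + 1) ^ 2 ≤ k →
    ∃ W : Finset (ℤ × ℤ), (∀ w ∈ W, w ∈ box K) ∧ (K : ℝ) ≤ R * W.card ∧
      (∀ w ∈ W, ∀ m : ℕ, 8 * m ≤ K →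
        (m : ℝ) ≤ R * ((W.filter (fun u => u - w ∈ box m)).card : ℝ)) ∧
      (∀ m : ℕ, 1 ≤ m → m ≤ K → ∀ z : ℤ × ℤ,
        ((W.filter (fun w => w - z ∈ box m)).card : ℝ) ≤ R ^ 5 * m) ∧
      ∀ Q : ℕ, R ≤ Q → Q ≤ K → ∃ P : Finset ℕ, P ⊆ primesMod (Q / 2) Q ∧
        (Q : ℝ) ≤ R ^ 2 * P.card ∧ ∀ p ∈ P, ((im rI W p).card : ℝ) ≤ (1 - 1 / R ^ 2) * p := by
  obtain ⟨N₀, hN₀, hth⟩ := th_dyadic
  have hC0 := one_le_C0
  set D' : ℝ := max |D| 1 with hD'
  have hD1 : 1 ≤ D' := le_max_right _ _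
  refine ⟨2304 + N₀ + C0 + D', fun R hRA k hRk g hinj hstep hlt hsum K hRK hKk => ?_⟩
  have hN₀0 : (0 : ℝ) ≤ N₀ := Nat.cast_nonneg _
  have hR2304 : (2304 : ℝ) ≤ R := by linarith
  have hRN : (N₀ : ℝ) ≤ R := by linarith
  have hRC : C0 ≤ R := by linarith
  have hRD : D' ≤ R := by linarith
  have hR1 : 1 ≤ R := by linarith
  have hR0 : 0 < R := by linarith
  have hKk' : K ≤ k := by nlinarith
  set h : ℕ → ℤ × ℤ := fun t => cd (g t - g 0) with hh
  have hlip : Lip h D' k := lip_of (le_max_left _ _) hstep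
  have hhinj : ∀ a ≤ k, ∀ b ≤ k, h a = h b → a = b := by
    intro a ha b hb hab
    have h1 := cd_injective hab
    exact hinj a ha b hb (sub_left_injective h1)
  have hh0 : h 0 = 0 := by simp [hh, cd]
  obtain ⟨W, hWsub, hWbox, hWK, hWloc⟩ := exists_sub hlip hhinj (by linarith) hh0 hKk
  have hdisp : (range (k + 1)).image h = (disp g 0 k).image cd := by
    rw [disp, Finset.image_image]
    refine Finset.image_congr (fun t _ => ?_)
    simp [hh]
  rw [hdisp] at hWsub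
  have hc0 : (0 : ℝ) ≤ W.card := Nat.cast_nonneg _
  -- levels
  have hlev : ∀ Q : ℕ, N₀ ≤ Q → 1 ≤ Q → Q ≤ K → ∃ P : Finset ℕ, P ⊆ primesMod (Q / 2) Q ∧
      1 / (16 * R) * Q ≤ P.card ∧
        ∀ p ∈ P, ((im rI W p).card : ℝ) ≤ (1 - 1 / (16 * R)) * p := by
    intro Q hNQ hQ1 hQK
    have hlog : Real.log Q ≤ R := by
      refine (Real.log_le_log ?_ ?_).trans hRk
      · exact_mod_cast hQ1
      · exact_mod_cast hQK.trans hKk'
    obtain ⟨P, hP1, hP2, hP3⟩ := good_dyadic (hQK.trans hKk') hR1 hlog hlt hsum (hth Q hNQ)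
    refine ⟨P, hP1, hP2, fun p hp => ?_⟩
    have h1 := im_card_le (mem_primesMod.mp (hP1 hp)).2.1 hWsub
    exact le_trans (by exact_mod_cast h1) (hP3 p hp)
  have h16 : 1 / R ^ 2 ≤ 1 / (16 * R) := by
    apply one_div_le_one_div_of_le (by positivity)
    nlinarith
  refine ⟨W, hWbox, hWK.trans (mul_le_mul_of_nonneg_right hRD hc0), ?_, ?_, ?_⟩
  · intro w hw m hm
    exact (hWloc w hw m hm).trans (mul_le_mul_of_nonneg_right hRD (Nat.cast_nonneg _))
  · intro m hm1 hmK z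
    set Q := max m N₀ with hQ
    have hNK : N₀ ≤ K := by
      have : (N₀ : ℝ) ≤ K := hRN.trans hRK
      exact_mod_cast this
    obtain ⟨P, hP1, hP2, hP3⟩ := hlev Q (le_max_right _ _) (hm1.trans (le_max_left _ _))
      (max_le hmK hNK)
    have h1 := local_upper (rts_primes (fun p hp => (mem_primesMod.mp (hP1 hp)).2))
      (fun p hp => (mem_primesMod.mp (hP1 hp)).1.2) (hm1.trans (le_max_left _ _))
      (δ := 1 / (16 * R)) (η := 1 / (16 * R)) (by positivity) (by positivity) hP2 hP3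
      (le_max_left m N₀) z
    refine h1.trans ?_
    have hm1r : (1 : ℝ) ≤ m := by exact_mod_cast hm1
    have hN1r : (1 : ℝ) ≤ N₀ := by exact_mod_cast hN₀
    have hQm : (Q : ℝ) ≤ N₀ * m := by
      rw [hQ]; push_cast
      apply max_le
      · nlinarith
      · nlinarith
    have e : 9 * C0 * (Q : ℝ) / (1 / (16 * R) * (1 / (16 * R))) = 2304 * C0 * R ^ 2 * Q := by
      field_simp; ring
    rw [e]
    have h2 : 2304 * C0 * R ^ 2 * (Q : ℝ) ≤ 2304 * C0 * R ^ 2 * (N₀ * m) :=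
      mul_le_mul_of_nonneg_left hQm (by positivity)
    refine h2.trans ?_
    have h3 : 2304 * C0 * (N₀ : ℝ) ≤ R * R * R := by
      apply mul_le_mul (mul_le_mul hR2304 hRC (by linarith) hR0.le) hRN hN₀0 (by positivity)
    calc 2304 * C0 * R ^ 2 * ((N₀ : ℝ) * m) = (2304 * C0 * (N₀ : ℝ)) * (R ^ 2 * m) := by ring
      _ ≤ (R * R * R) * (R ^ 2 * m) := mul_le_mul_of_nonneg_right h3 (by positivity)
      _ = R ^ 5 * m := by ring
  · intro Q hRQ hQK
    have hNQ : N₀ ≤ Q := by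
      have : (N₀ : ℝ) ≤ Q := hRN.trans hRQ
      exact_mod_cast this
    have hQ1 : 1 ≤ Q := by
      have : (1 : ℝ) ≤ Q := hR1.trans hRQ
      exact_mod_cast this
    obtain ⟨P, hP1, hP2, hP3⟩ := hlev Q hNQ hQ1 hQK
    refine ⟨P, hP1, ?_, fun p hp => (hP3 p hp).trans ?_⟩
    · have h1 : 1 / R ^ 2 * (Q : ℝ) ≤ P.card :=
        (mul_le_mul_of_nonneg_right h16 (Nat.cast_nonneg _)).trans hP2
      rw [div_mul_eq_mul_div, one_mul, div_le_iff₀ (by positivity)] at h1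
      linarith
    · refine mul_le_mul_of_nonneg_right ?_ (Nat.cast_nonneg _)
      linarith

end Vale.Agent.P015.R2.H731
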