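import Vale.Agent.P015.R2.H116.Defs
import Vale.Agent.P015.R2.H731.Setup
import Vale.Agent.P015.R2.H731.Recur

/-! The final step: no walk has a small harmonic sum. -/

namespace Vale.Agent.P015.R2.H731

open Finset Vale.Agent.P015 Vale.Agent.P015.Cx Vale.Agent.P006.CLS Vale.Agent.P015.H222
  Vale.Agent.P015.R2.H116 Filter Topology

/-- statement of the coupling theorem -/
def CouplingStmt : Prop :=
  ∃ a : ℕ, ∀ (Λ : ℝ) (W : Finset (ℤ × ℤ)) (K Q0 Q : ℕ), Cv W K Λ →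
    ∀ (Pi0 Pi : Finset GaussianInt) (α : GaussianInt → GaussianInt), Lvl Λ Q0 Pi0 α →
    Lvl Λ Q Pi α → Λ ^ a ≤ Q0 → Q0 ^ 3 ≤ Q → Q ^ 4 ≤ K →
    (W.card : ℝ) * Pi0.card * Pi.card ≤
      Λ * ∑ π ∈ Pi0, ∑ ρ ∈ Pi, ‖hc W (th α ρ - th α π)‖ → False

/-- statement of the two-level theorem -/
def P2Stmt : Prop :=
  ∃ a : ℕ, ∀ (Λ : ℝ) (W : Finset (ℤ × ℤ)) (K Q0 Q : ℕ), Cv W K Λ →
    ∀ (r : ℕ → ℤ) (P0 P : Finset ℕ), Rts r P0 → Rts r P →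
    (∀ p ∈ P0, Q0 ≤ 2 * p ∧ p ≤ Q0) → (∀ p ∈ P, Q ≤ 2 * p ∧ p ≤ Q) →
    (Q0 : ℝ) ≤ Λ * P0.card → (Q : ℝ) ≤ Λ * P.card →
    (∀ p ∈ P0, ((im r W p).card : ℝ) ≤ (1 - 1 / Λ) * p) →
    (∀ p ∈ P, ((im r W p).card : ℝ) ≤ (1 - 1 / Λ) * p) →
    Λ ^ a ≤ Q0 → 2 * Q0 < Q → 16 * Q ^ 2 ≤ K →
    ∃ (Pi0 Pi : Finset GaussianInt) (α : GaussianInt → GaussianInt), Lvl (Λ ^ a) Q0 Pi0 α ∧
      Lvl (Λ ^ a) Q Pi α ∧ (W.card : ℝ) * Pi0.card * Pi.card ≤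
      Λ ^ a * ∑ π ∈ Pi0, ∑ ρ ∈ Pi, ‖hc W (th α ρ - th α π)‖

theorem cv_mono {W : Finset (ℤ × ℤ)} {K : ℕ} {Λ Λ' : ℝ} (h : Cv W K Λ) (hΛ : Λ ≤ Λ') :
    Cv W K Λ' where
  ten := h.ten.trans hΛ
  c0 := h.c0.trans hΛ
  sub := h.sub
  size := h.size.trans (mul_le_mul_of_nonneg_right hΛ (Nat.cast_nonneg _))
  up := fun z m h1 h2 => (h.up z m h1 h2).trans (mul_le_mul_of_nonneg_right hΛ (Nat.cast_nonneg _))
  low := fun w hw m hm => (h.low w hw m hm).trans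
    (mul_le_mul_of_nonneg_right hΛ (Nat.cast_nonneg _))

theorem harmPoly_of (hc : CouplingStmt) (hp : P2Stmt) : ∃ C : ℝ, 1 ≤ C ∧ ∀ D : ℝ, HarmPoly C D := by
  obtain ⟨a, ha⟩ := hc
  obtain ⟨a', ha'⟩ := hp
  set e : ℕ := (a' + 1) * (a + 1) with he
  have he1 : a' + 1 ≤ e := Nat.le_mul_of_pos_right _ (by omega)
  have hea : (a' + 1) * a ≤ e := Nat.mul_le_mul_left _ (by omega)
  refine ⟨((120 * e + 1 : ℕ) : ℝ), by push_cast; nlinarith [Nat.cast_nonneg (α := ℝ) e], fun D => ?_⟩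
  obtain ⟨A, hA⟩ := setup_walk D
  have hlogk : Tendsto (fun k : ℕ => Real.log (k : ℝ)) atTop atTop :=
    Real.tendsto_log_atTop.comp tendsto_natCast_atTop_atTop
  have hC0 := one_le_C0
  obtain ⟨k₀, hk₀⟩ := Filter.eventually_atTop.1
    (hlogk.eventually (eventually_ge_atTop (|A| + C0 + 10 ^ 9)))
  refine ⟨k₀, fun k hk g hinj hstep R hRk hlt hsum => ?_⟩
  have hR := (hk₀ k hk).trans hRk
  have hRA : A ≤ R := by
    have := le_abs_self A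
    linarith
  have hR9 : (10 : ℝ) ^ 9 ≤ R := by
    have := abs_nonneg A
    linarith
  have hRC : C0 ≤ R := by
    have := abs_nonneg A
    have : (0 : ℝ) < 10 ^ 9 := by norm_num
    linarith
  have hR1 : (1 : ℝ) ≤ R := le_trans (by norm_num) hR9
  have hR0 : 0 < R := by linarith
  rw [Real.rpow_natCast]
  by_contra hcon
  rw [not_lt] at hcon
  -- the first level
  set Λ : ℝ := R ^ 5 with hΛ
  have hΛR : R ≤ Λ := le_self_pow₀ hR1 (by norm_num)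
  have hΛ1 : 1 ≤ Λ := hR1.trans hΛR
  set Q0 : ℕ := ⌈Λ ^ e⌉₊ with hQ0
  have hQ0l : Λ ^ e ≤ Q0 := Nat.le_ceil _
  have hΛe : 1 ≤ Λ ^ e := one_le_pow₀ hΛ1
  have hQ0u : (Q0 : ℝ) ≤ 2 * Λ ^ e := by
    have := Nat.ceil_lt_add_one (show 0 ≤ Λ ^ e by positivity)
    rw [← hQ0] at this
    linarith
  have hΛΛe : Λ ≤ Λ ^ e := le_self_pow₀ hΛ1 (by omega)
  have hQ0R : R ≤ Q0 := (hΛR.trans hΛΛe).trans hQ0l
  have hQ0big : (10 : ℝ) ^ 9 ≤ Q0 := hR9.trans hQ0R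
  have hQ04 : 4 ≤ Q0 := by
    have : (4 : ℝ) ≤ Q0 := le_trans (by norm_num) hQ0big
    exact_mod_cast this
  set Q : ℕ := Q0 ^ 3 with hQ
  set K : ℕ := Q ^ 4 with hK
  have hQ0Q : Q0 ≤ Q := Nat.le_self_pow (by norm_num) _
  have hQK : Q ≤ K := Nat.le_self_pow (by norm_num) _
  have hKk : (2 * K + 1) ^ 2 ≤ k := by
    have h1 : (2 * K + 1) ^ 2 ≤ 9 * K ^ 2 := by
      have : 1 ≤ K := by omega
      nlinarith
    have h2 : ((9 * K ^ 2 : ℕ) : ℝ) ≤ k := by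
      refine le_trans ?_ hcon
      have e1 : ((9 * K ^ 2 : ℕ) : ℝ) = 9 * (Q0 : ℝ) ^ 24 := by
        rw [hK, hQ]; push_cast; ring
      rw [e1]
      calc 9 * (Q0 : ℝ) ^ 24 ≤ 9 * (2 * Λ ^ e) ^ 24 :=
            mul_le_mul_of_nonneg_left (pow_le_pow_left₀ (Nat.cast_nonneg _) hQ0u 24) (by norm_num)
        _ = (9 * 2 ^ 24) * R ^ (120 * e) := by
            rw [hΛ]; ring
        _ ≤ R * R ^ (120 * e) := by
            refine mul_le_mul_of_nonneg_right (le_trans (by norm_num) hR9) (by positivity)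
        _ = R ^ (120 * e + 1) := by ring
    exact h1.trans (by exact_mod_cast h2)
  have hRK : R ≤ K := hQ0R.trans (by exact_mod_cast hQ0Q.trans hQK)
  obtain ⟨W, hWbox, hWK, hWloc, hWup, hWlev⟩ := hA R hRA k hRk g hinj hstep hlt hsum K hRK hKk
  have hcv : Cv W K Λ := by
    refine ⟨?_, hRC.trans hΛR, hWbox, ?_, ?_, ?_⟩
    · exact le_trans (by norm_num) (hR9.trans hΛR)
    · exact hWK.trans (mul_le_mul_of_nonneg_right hΛR (Nat.cast_nonneg _))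
    · intro z m h1 h2
      exact hWup m h1 h2 z
    · intro w hw m hm
      exact (hWloc w hw m hm).trans (mul_le_mul_of_nonneg_right hΛR (Nat.cast_nonneg _))
  obtain ⟨P0, hP0, hP0c, hP0m⟩ := hWlev Q0 hQ0R (hQ0Q.trans hQK)
  obtain ⟨P, hP, hPc, hPm⟩ := hWlev Q (hQ0R.trans (by exact_mod_cast hQ0Q)) hQK
  have hR2 : R ^ 2 ≤ Λ := pow_le_pow_right₀ hR1 (by norm_num)
  have hinv : 1 / Λ ≤ 1 / R ^ 2 := one_div_le_one_div_of_le (by positivity) hR2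
  have hmem : ∀ {q : ℕ} {P : Finset ℕ}, P ⊆ primesMod (q / 2) q →
      ∀ p ∈ P, q ≤ 2 * p ∧ p ≤ q := by
    intro q P hP p hp
    have := mem_primesMod.mp (hP hp)
    exact ⟨by omega, this.1.2⟩
  have hrts : ∀ {q : ℕ} {P : Finset ℕ}, P ⊆ primesMod (q / 2) q → Rts rI P :=
    fun hP => rts_primes (fun p hp => (mem_primesMod.mp (hP hp)).2)
  have himp : ∀ {P : Finset ℕ}, (∀ p ∈ P, ((im rI W p).card : ℝ) ≤ (1 - 1 / R ^ 2) * p) →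
      ∀ p ∈ P, ((im rI W p).card : ℝ) ≤ (1 - 1 / Λ) * p := by
    intro P h p hp
    refine (h p hp).trans (mul_le_mul_of_nonneg_right (by linarith) (Nat.cast_nonneg _))
  have hQ0lt : 2 * Q0 < Q := by
    rw [hQ]
    nlinarith [Nat.mul_le_mul hQ04 hQ04]
  have h16 : 16 * Q ^ 2 ≤ K := by
    rw [hK]
    have : 4 ≤ Q := hQ04.trans hQ0Q
    nlinarith [Nat.mul_le_mul this this, sq_nonneg Q, Nat.mul_le_mul (Nat.mul_le_mul this this)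
      (le_refl (Q ^ 2))]
  obtain ⟨Pi0, Pi, α, hL0, hL1, hmain⟩ := ha' Λ W K Q0 Q hcv rI P0 P (hrts hP0) (hrts hP)
    (hmem hP0) (hmem hP)
    (hP0c.trans (mul_le_mul_of_nonneg_right hR2 (Nat.cast_nonneg _)))
    (hPc.trans (mul_le_mul_of_nonneg_right hR2 (Nat.cast_nonneg _)))
    (himp hP0m) (himp hPm)
    ((pow_le_pow_right₀ hΛ1 (by omega)).trans hQ0l) hQ0lt h16
  have hΛa : Λ ≤ Λ ^ (a' + 1) := le_self_pow₀ hΛ1 (by omega)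
  have hΛa' : Λ ^ a' ≤ Λ ^ (a' + 1) := pow_le_pow_right₀ hΛ1 (by omega)
  have hlvl : ∀ {q : ℕ} {P : Finset GaussianInt}, Lvl (Λ ^ a') q P α →
      Lvl (Λ ^ (a' + 1)) q P α := fun h =>
    ⟨h.prime, h.lower, h.upper, h.inj, h.num,
      h.many.trans (mul_le_mul_of_nonneg_right hΛa' (Nat.cast_nonneg _))⟩
  refine ha (Λ ^ (a' + 1)) W K Q0 Q (cv_mono hcv hΛa) Pi0 Pi α (hlvl hL0) (hlvl hL1) ?_ le_rfl
    le_rfl (hmain.trans (mul_le_mul_of_nonneg_right hΛa' ?_))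
  · rw [← pow_mul]
    exact (pow_le_pow_right₀ hΛ1 hea).trans hQ0l
  · exact Finset.sum_nonneg fun _ _ => Finset.sum_nonneg fun _ _ => norm_nonneg _

end Vale.Agent.P015.R2.H731
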