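import Vale.Agent.P015.R2.H731.Bridge
import Vale.Agent.P015.R2.H731.NoSmall

namespace Vale.Agent.P015.R2.H731

open Finset Vale.Agent.P006.CLS Vale.Agent.P015.H222 Vale.Agent.P015 Vale.Agent.P015.Cx
  Vale.Agent.P015.R2.H116

open scoped ComplexConjugate

theorem norm_hg_sum_conj (W : Finset (ℤ × ℤ)) (P : Finset ℕ) (x y : ℕ → ℝ) (ε : ℕ → ℂ)
    (hε : ∀ p, ‖ε p‖ ≤ 1) (x' y' : ℝ) :
    ‖∑ w ∈ W, conj ((1 / (P.card : ℂ)) * ∑ p ∈ P, ε p * e2 (x p) (y p) w) * e2 x' y' w‖ ≤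
      1 / (P.card : ℝ) * ∑ p ∈ P, ‖hg W (x' - x p) (y' - y p)‖ := by
  have h1 : ∑ w ∈ W, conj ((1 / (P.card : ℂ)) * ∑ p ∈ P, ε p * e2 (x p) (y p) w) * e2 x' y' w =
      (1 / (P.card : ℂ)) * ∑ p ∈ P, conj (ε p) * hg W (x' - x p) (y' - y p) := by
    have h2 : ∀ w : ℤ × ℤ, conj ((1 / (P.card : ℂ)) * ∑ p ∈ P, ε p * e2 (x p) (y p) w) *
        e2 x' y' w = (1 / (P.card : ℂ)) * ∑ p ∈ P, conj (ε p) * e2 (x' - x p) (y' - y p) w := by
      intro w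
      rw [map_mul, map_sum, map_div₀, map_one, Complex.conj_natCast, mul_assoc, Finset.sum_mul]
      congr 1
      refine Finset.sum_congr rfl fun p _ => ?_
      rw [e2_sub_freq, map_mul]
      ring
    simp_rw [h2]
    rw [← Finset.mul_sum, Finset.sum_comm]
    congr 1
    refine Finset.sum_congr rfl fun p _ => ?_
    rw [hg, Finset.mul_sum]
  rw [h1, norm_mul, norm_div, norm_one, Complex.norm_natCast]
  refine mul_le_mul_of_nonneg_left ?_ (by positivity)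
  refine (norm_sum_le _ _).trans (Finset.sum_le_sum fun p _ => ?_)
  rw [norm_mul, Complex.norm_conj]
  have := norm_nonneg (hg W (x' - x p) (y' - y p))
  nlinarith [hε p, norm_nonneg (ε p)]

theorem th_coord {c : ℤ} {r : ℤ} {p : ℕ} (s : ℂ) (hs : s = (c : ℂ) * (1 - Complex.I * r) / p) :
    s.re = (c : ℝ) / p ∧ -s.im = (c : ℝ) * r / p := by
  have h1 : s = (((c : ℝ) / p : ℝ) : ℂ) - (((c : ℝ) * r / p : ℝ) : ℂ) * Complex.I := by
    rw [hs]; push_cast; ring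
  rw [h1]
  constructor
  · simp
  · simp

theorem p2 : P2Stmt := by
  obtain ⟨a, hL1⟩ := L1
  set A : ℕ := (a + 1) * (a + 1) + 2 with hA
  refine ⟨A, fun Λ W K Q0 Q hcv r P0 P hR0 hR hP0 hP hP0c hPc hm0 hm hΛQ0 hQQ hK => ?_⟩
  have hΛ10 := hcv.ten
  have hΛ1 : (1 : ℝ) ≤ Λ := by linarith
  have hΛ0 : (0 : ℝ) < Λ := by linarith
  have ha1 : a ≤ A := by rw [hA]; nlinarith
  have haa : (a + 1) * a ≤ A := by rw [hA]; nlinarith
  have haa1 : (a + 1) * a + 1 ≤ A := by rw [hA]; nlinarith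
  have h2A : 2 ≤ A := by rw [hA]; omega
  have hQ0Q : Q0 ≤ Q := by omega
  have hK0 : 16 * Q0 ^ 2 ≤ K := by
    have : Q0 ^ 2 ≤ Q ^ 2 := Nat.pow_le_pow_left hQ0Q 2
    omega
  -- first application
  obtain ⟨P0', hP0's, hP0'c, hc0⟩ := hL1 Λ W K Q0 hcv r P0 hR0 (fun p hp => (hP0 p hp).2) hP0c hm0
    ((pow_le_pow_right₀ hΛ1 ha1).trans hΛQ0) hK0 (fun _ => 1) (fun _ => by simp) (by
      rw [Finset.sum_const, nsmul_eq_mul, mul_one, Complex.norm_natCast]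
      have : (0 : ℝ) ≤ W.card := Nat.cast_nonneg _
      nlinarith)
  choose! c0 hc0m hc0b using hc0
  simp only [one_mul] at hc0b
  have hQ0pos : (0 : ℝ) < Q0 := lt_of_lt_of_le (by positivity) hΛQ0
  have hP0pos : 0 < P0.card := by
    rcases Nat.eq_zero_or_pos P0.card with h | h
    · rw [h, Nat.cast_zero, mul_zero] at hP0c
      linarith
    · exact h
  have hP0'pos : 0 < P0'.card := by omega
  have hn0 : (0 : ℝ) < P0'.card := by exact_mod_cast hP0'pos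
  set S : ℕ → ℂ := fun p => hg W (fx ⟨p, c0 p⟩) (fy r ⟨p, c0 p⟩) with hS
  set ε : ℕ → ℂ := fun p => conj (S p) / ‖S p‖ with hε
  have hε1 : ∀ p, ‖ε p‖ ≤ 1 := by
    intro p
    simp only [hε]
    rw [norm_div, Complex.norm_conj, Complex.norm_real, norm_norm]
    exact div_self_le_one _
  have hεS : ∀ p, ε p * S p = ‖S p‖ := by
    intro p
    simp only [hε]
    rcases eq_or_ne (S p) 0 with h | h
    · simp [h]
    · have h1 : (‖S p‖ : ℂ) ≠ 0 := by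
        rw [Ne, Complex.ofReal_eq_zero, norm_eq_zero]; exact h
      rw [div_mul_eq_mul_div, div_eq_iff h1, ← sq, mul_comm, Complex.mul_conj,
        Complex.normSq_eq_norm_sq]
      push_cast
      rfl
  set F : ℤ × ℤ → ℂ := fun w => (1 / (P0'.card : ℂ)) * ∑ p ∈ P0',
    ε p * e2 (fx ⟨p, c0 p⟩) (fy r ⟨p, c0 p⟩) w with hF
  have hF1 : ∀ w, ‖F w‖ ≤ 1 := by
    intro w
    simp only [hF]
    rw [norm_mul, norm_div, norm_one, Complex.norm_natCast, one_div, inv_mul_le_iff₀ hn0, mul_one]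
    refine (norm_sum_le _ _).trans ?_
    calc ∑ p ∈ P0', ‖ε p * e2 (fx ⟨p, c0 p⟩) (fy r ⟨p, c0 p⟩) w‖ ≤ ∑ p ∈ P0', (1 : ℝ) := by
          refine Finset.sum_le_sum fun p _ => ?_
          rw [norm_mul, norm_e2, mul_one]
          exact hε1 p
      _ = P0'.card := by simp
  have hFsum : ∑ w ∈ W, F w = ((1 / (P0'.card : ℝ) * ∑ p ∈ P0', ‖S p‖ : ℝ) : ℂ) := by
    simp only [hF]
    rw [← Finset.mul_sum, Finset.sum_comm]
    push_cast
    congr 1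
    refine Finset.sum_congr rfl fun p _ => ?_
    rw [← Finset.mul_sum]
    exact hεS p
  have hΛa0 : (0 : ℝ) < Λ ^ a := by positivity
  have hFlow : (W.card : ℝ) ≤ Λ ^ a * (1 / (P0'.card : ℝ) * ∑ p ∈ P0', ‖S p‖) := by
    have h1 : (P0'.card : ℝ) * W.card ≤ Λ ^ a * ∑ p ∈ P0', ‖S p‖ := by
      rw [Finset.mul_sum, ← nsmul_eq_mul]
      exact Finset.card_nsmul_le_sum P0' _ _ fun p hp => hc0b p hp
    have e1 : Λ ^ a * (1 / (P0'.card : ℝ) * ∑ p ∈ P0', ‖S p‖) =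
        (Λ ^ a * ∑ p ∈ P0', ‖S p‖) / P0'.card := by ring
    rw [e1, le_div_iff₀ hn0]
    linarith
  have hΛ1' : Λ ≤ Λ ^ (a + 1) := le_self_pow₀ hΛ1 (by omega)
  have hΛaa : Λ ^ a ≤ Λ ^ (a + 1) := pow_le_pow_right₀ hΛ1 (by omega)
  -- second application
  obtain ⟨P', hP's, hP'c, hc1⟩ := hL1 (Λ ^ (a + 1)) W K Q (cv_mono hcv hΛ1') r P hR
    (fun p hp => (hP p hp).2) (hPc.trans (mul_le_mul_of_nonneg_right hΛ1' (Nat.cast_nonneg _)))
    (fun p hp => (hm p hp).trans (mul_le_mul_of_nonneg_right (by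
      have := one_div_le_one_div_of_le hΛ0 hΛ1'
      linarith) (Nat.cast_nonneg _)))
    (by
      rw [← pow_mul]
      exact ((pow_le_pow_right₀ hΛ1 haa).trans hΛQ0).trans (by exact_mod_cast hQ0Q)) hK
    (fun w => conj (F w)) (fun w => by rw [Complex.norm_conj]; exact hF1 w) (by
      rw [← map_sum, Complex.norm_conj, hFsum, Complex.norm_real]
      refine hFlow.trans (mul_le_mul hΛaa (le_abs_self _) ?_ (by positivity))
      exact mul_nonneg (by positivity) (Finset.sum_nonneg fun _ _ => norm_nonneg _))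
  choose! c1 hc1m hc1b using hc1
  have hρ : ∀ ρ ∈ P', (W.card : ℝ) * P0'.card ≤ Λ ^ ((a + 1) * a) * ∑ p ∈ P0',
      ‖hg W (fx ⟨ρ, c1 ρ⟩ - fx ⟨p, c0 p⟩) (fy r ⟨ρ, c1 ρ⟩ - fy r ⟨p, c0 p⟩)‖ := by
    intro ρ hρ
    have h1 := hc1b ρ hρ
    have h2 := norm_hg_sum_conj W P0' (fun p => fx ⟨p, c0 p⟩) (fun p => fy r ⟨p, c0 p⟩) ε hε1
      (fx ⟨ρ, c1 ρ⟩) (fy r ⟨ρ, c1 ρ⟩)
    rw [← pow_mul] at h1
    have h3 := h1.trans (mul_le_mul_of_nonneg_left h2 (by positivity))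
    have e1 : Λ ^ ((a + 1) * a) * (1 / (P0'.card : ℝ) * ∑ p ∈ P0',
        ‖hg W (fx ⟨ρ, c1 ρ⟩ - fx ⟨p, c0 p⟩) (fy r ⟨ρ, c1 ρ⟩ - fy r ⟨p, c0 p⟩)‖) =
        (Λ ^ ((a + 1) * a) * ∑ p ∈ P0',
        ‖hg W (fx ⟨ρ, c1 ρ⟩ - fx ⟨p, c0 p⟩) (fy r ⟨ρ, c1 ρ⟩ - fy r ⟨p, c0 p⟩)‖) / P0'.card := by
      ring
    rw [e1, le_div_iff₀ hn0] at h3
    exact h3
  -- Gaussian primes
  set cc : ℕ → ℕ := fun p => if p ∈ P0' then c0 p else c1 p with hcc
  have hdisj : ∀ p ∈ P', p ∉ P0' := by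
    intro p hp hp0
    have h1 := (hP p (hP's hp)).1
    have h2 := (hP0 p (hP0's hp0)).2
    omega
  have hcc0 : ∀ p ∈ P0', cc p = c0 p := fun p hp => if_pos hp
  have hcc1 : ∀ p ∈ P', cc p = c1 p := fun p hp => if_neg (hdisj p hp)
  have hbr : ∀ p ∈ P0' ∪ P', ∃ πα : GaussianInt × GaussianInt, Prime πα.1 ∧ πα.1.norm = p ∧
      ¬ πα.1 ∣ πα.2 ∧ GaussianInt.toComplex πα.2 / GaussianInt.toComplex πα.1 =
        ((cc p : ℤ) : ℂ) * (1 - Complex.I * r p) / p := by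
    intro p hp
    have hrts : p.Prime ∧ (p : ℤ) ∣ r p ^ 2 + 1 := by
      rcases Finset.mem_union.1 hp with h | h
      · exact hR0 p (hP0's h)
      · exact hR p (hP's h)
    have hcp : cc p ∈ Icc 1 (p - 1) := by
      rcases Finset.mem_union.1 hp with h | h
      · rw [hcc0 p h]; exact hc0m p h
      · rw [hcc1 p h]; exact hc1m p h
    rw [Finset.mem_Icc] at hcp
    obtain ⟨π, α, h1, h2, h3, h4⟩ := bridge hrts.1 hrts.2 (c := (cc p : ℤ)) (by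
      intro hd
      have h5 : p ∣ cc p := by exact_mod_cast hd
      have := Nat.le_of_dvd (by omega) h5
      have := hrts.1.pos
      omega)
    exact ⟨(π, α), h1, h2, h3, h4⟩
  choose! πα hπp hπn hπd hπc using hbr
  set al : GaussianInt → GaussianInt := fun z => (πα z.norm.toNat).2 with hal
  have hal1 : ∀ p ∈ P0' ∪ P', al (πα p).1 = (πα p).2 := by
    intro p hp
    simp only [hal]
    rw [hπn p hp, Int.toNat_natCast]
  have hinj : Set.InjOn (fun p => (πα p).1) (P0' ∪ P' : Finset ℕ) := by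
    intro p hp q hq hpq
    have h1 := hπn p hp
    have h2 := hπn q hq
    simp only at hpq
    rw [hpq, h2] at h1
    exact_mod_cast h1.symm
  have hsub0 : P0' ⊆ P0' ∪ P' := Finset.subset_union_left
  have hsub1 : P' ⊆ P0' ∪ P' := Finset.subset_union_right
  have hinj0 : Set.InjOn (fun p => (πα p).1) P0' := hinj.mono (by exact_mod_cast hsub0)
  have hinj1 : Set.InjOn (fun p => (πα p).1) P' := hinj.mono (by exact_mod_cast hsub1)
  have hth : ∀ p ∈ P0' ∪ P', (th al (πα p).1).re = fx ⟨p, cc p⟩ ∧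
      -(th al (πα p).1).im = fy r ⟨p, cc p⟩ := by
    intro p hp
    have h1 := th_coord (c := (cc p : ℤ)) (r := r p) (p := p) (th al (πα p).1) (by
      rw [H116.th, hal1 p hp]; exact hπc p hp)
    simp only [fx, fy]
    push_cast at h1
    exact h1
  have hlvl : ∀ (q : ℕ) (R R' : Finset ℕ), R' ⊆ R → R' ⊆ P0' ∪ P' →
      (∀ p ∈ R, q ≤ 2 * p ∧ p ≤ q) → (q : ℝ) ≤ Λ * R.card → R.card ≤ 2 * R'.card →
      Lvl (Λ ^ A) q (R'.image (fun p => (πα p).1)) al := by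
    intro q R R' hRR hRU hq hqc hRc
    refine ⟨?_, ?_, ?_, ?_, ?_, ?_⟩
    · intro π hπ
      obtain ⟨p, hp, rfl⟩ := Finset.mem_image.1 hπ
      exact hπp p (hRU hp)
    · intro π hπ
      obtain ⟨p, hp, rfl⟩ := Finset.mem_image.1 hπ
      rw [hπn p (hRU hp)]
      exact_mod_cast (hq p (hRR hp)).1
    · intro π hπ
      obtain ⟨p, hp, rfl⟩ := Finset.mem_image.1 hπ
      rw [hπn p (hRU hp)]
      exact_mod_cast (hq p (hRR hp)).2
    · intro π hπ π' hπ' h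
      obtain ⟨p, hp, rfl⟩ := Finset.mem_image.1 hπ
      obtain ⟨p', hp', rfl⟩ := Finset.mem_image.1 hπ'
      rw [hπn p (hRU hp), hπn p' (hRU hp')] at h
      have : p = p' := by exact_mod_cast h
      rw [this]
    · intro π hπ
      obtain ⟨p, hp, rfl⟩ := Finset.mem_image.1 hπ
      rw [hal1 p (hRU hp)]
      exact hπd p (hRU hp)
    · rw [Finset.card_image_of_injOn (hinj.mono (by exact_mod_cast hRU))]
      have h1 : (R.card : ℝ) ≤ 2 * R'.card := by exact_mod_cast hRc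
      have h2 : Λ * 2 ≤ Λ ^ A := by
        calc Λ * 2 ≤ Λ * Λ := mul_le_mul_of_nonneg_left (by linarith) hΛ0.le
          _ = Λ ^ 2 := by ring
          _ ≤ Λ ^ A := pow_le_pow_right₀ hΛ1 h2A
      calc (q : ℝ) ≤ Λ * R.card := hqc
        _ ≤ Λ * (2 * R'.card) := mul_le_mul_of_nonneg_left h1 hΛ0.le
        _ = (Λ * 2) * R'.card := by ring
        _ ≤ Λ ^ A * R'.card := mul_le_mul_of_nonneg_right h2 (Nat.cast_nonneg _)
  refine ⟨P0'.image (fun p => (πα p).1), P'.image (fun p => (πα p).1), al,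
    hlvl Q0 P0 P0' hP0's hsub0 hP0 hP0c hP0'c, hlvl Q P P' hP's hsub1 hP hPc hP'c, ?_⟩
  rw [Finset.card_image_of_injOn hinj0, Finset.card_image_of_injOn hinj1, Finset.sum_image hinj0]
  have hterm : ∀ p ∈ P0', ∀ ρ ∈ P', ‖hc W (th al (πα ρ).1 - th al (πα p).1)‖ =
      ‖hg W (fx ⟨ρ, c1 ρ⟩ - fx ⟨p, c0 p⟩) (fy r ⟨ρ, c1 ρ⟩ - fy r ⟨p, c0 p⟩)‖ := by
    intro p hp ρ hρ
    obtain ⟨h1, h2⟩ := hth p (hsub0 hp)
    obtain ⟨h3, h4⟩ := hth ρ (hsub1 hρ)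
    rw [hcc0 p hp] at h1 h2
    rw [hcc1 ρ hρ] at h3 h4
    rw [hc, Complex.sub_re, Complex.sub_im, h1, h3, ← h2, ← h4]
    congr 2
    ring
  calc (W.card : ℝ) * P0'.card * P'.card = ∑ ρ ∈ P', (W.card : ℝ) * P0'.card := by
        rw [Finset.sum_const, nsmul_eq_mul]; ring
    _ ≤ ∑ ρ ∈ P', Λ ^ ((a + 1) * a) * ∑ p ∈ P0',
        ‖hg W (fx ⟨ρ, c1 ρ⟩ - fx ⟨p, c0 p⟩) (fy r ⟨ρ, c1 ρ⟩ - fy r ⟨p, c0 p⟩)‖ :=
        Finset.sum_le_sum hρ
    _ = Λ ^ ((a + 1) * a) * ∑ p ∈ P0', ∑ ρ ∈ P'.image (fun p => (πα p).1),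
        ‖hc W (th al ρ - th al (πα p).1)‖ := by
        rw [← Finset.mul_sum, Finset.sum_comm]
        congr 1
        refine Finset.sum_congr rfl fun p hp => ?_
        rw [Finset.sum_image hinj1]
        exact Finset.sum_congr rfl fun ρ hρ => (hterm p hp ρ hρ).symm
    _ ≤ _ := by
        refine mul_le_mul_of_nonneg_right (pow_le_pow_right₀ hΛ1 haa) ?_
        exact Finset.sum_nonneg fun _ _ => Finset.sum_nonneg fun _ _ => norm_nonneg _

end Vale.Agent.P015.R2.H731
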