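import Vale.Agent.P015.Cx.Path

/-! Module M5: from a walk with few words of length `k` to one `k`-path that misses many residue
classes modulo most Gaussian primes of norm up to `Q`. -/

namespace Vale.Agent.P015.R2.H731

open Finset Vale.Agent.P015 Vale.Agent.P015.Cx

/-- **M5, finite form.**  A walk `g 0, ..., g N` with at most `B` words of length `k` that misses a
class modulo each prime above a rational prime `p ≤ N`, `p ≡ 1 mod 4`, has a piece of length `k`
whose displacement set misses many classes. -/
theorem popular {g : ℕ → GaussianInt} {N k Q B : ℕ} {D : ℝ} (hD : 1 ≤ D) (hQ : 1 ≤ Q)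
    (hB1 : 1 ≤ B)
    (hinj : ∀ a ≤ N, ∀ b ≤ N, g a = g b → a = b)
    (hmiss : Misses g N)
    (hstep : ∀ a b, a ≤ b → b ≤ N → ((g b - g a).norm : ℝ) ≤ (D * ((b - a : ℕ) : ℝ)) ^ 2)
    (hB : ((range (N + 1 - k)).image (word g k)).card ≤ B)
    (hN : Q * B + k ≤ N) :
    ∃ n, n + k ≤ N ∧
      (∀ p : ℕ, p.Prime → p % 4 = 1 → p ≤ N → ∀ b : Bool,
        ((disp g n k).image (phi p (root p b))).card < p) ∧
      ∑ p ∈ primesMod 0 Q, ∑ b : Bool,
        Real.log p / ((p : ℝ) - ((disp g n k).image (phi p (root p b))).card) ≤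
        2 * Real.log 4 + 2 * Real.log (D * (Q * B : ℕ)) := by
  have hQB : Q ≤ Q * B := Nat.le_mul_of_pos_right _ hB1
  -- a popular word
  have hsub : (Finset.range (Q * B)).image (fun t => word g k t) ⊆
      (range (N + 1 - k)).image (word g k) := by
    intro y hy
    rw [mem_image] at hy ⊢
    obtain ⟨a, ha, rfl⟩ := hy
    rw [mem_range] at ha
    exact ⟨a, by rw [mem_range]; omega, rfl⟩
  obtain ⟨y, hy, hcard⟩ := Finset.exists_le_card_fiber_of_mul_le_card_of_maps_to
    (s := Finset.range (Q * B))
    (t := (Finset.range (Q * B)).image (fun t => word g k t))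
    (f := fun t => word g k t) (n := Q)
    (fun a ha => mem_image_of_mem _ ha) (by
      rw [image_nonempty]
      exact ⟨0, by rw [mem_range]; omega⟩)
    (by
      rw [card_range]
      calc _ ≤ B * Q := Nat.mul_le_mul_right _ ((Finset.card_le_card hsub).trans hB)
        _ ≤ Q * B := by rw [mul_comm])
  set T := (Finset.range (Q * B)).filter (fun t => word g k t = y) with hT
  have hTne : T.Nonempty := by
    rw [← Finset.card_pos]; omega
  obtain ⟨n, hn⟩ := hTne
  have hmem : ∀ t ∈ T, t < Q * B ∧ word g k t = y := by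
    intro t ht
    rw [hT, mem_filter, mem_range] at ht
    exact ht
  set X : Finset GaussianInt := T.image g with hX
  have hXcard : X.card = T.card := by
    rw [hX]
    refine Finset.card_image_of_injOn ?_
    intro a ha b hb hab
    exact hinj a (by have := (hmem a ha).1; omega) b (by have := (hmem b hb).1; omega) hab
  have hXne : X.Nonempty := by
    rw [hX, image_nonempty]; exact ⟨n, hn⟩
  have hnN : n + k ≤ N := by have := (hmem n hn).1; omega
  -- the classes of `X` give missed classes
  have hdisj : ∀ p : ℕ, p.Prime → p % 4 = 1 → p ≤ N → ∀ b : Bool,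
      ((X.image (phi p (root p b))).card : ℝ) ≤
        (p : ℝ) - ((disp g n k).image (phi p (root p b))).card := by
    intro p hp hp4 hpN b
    have : Fact p.Prime := ⟨hp⟩
    obtain ⟨c, hc⟩ := hmiss p hp hp4 hpN b
    have h1 : Disjoint ((X.image (phi p (root p b))).image (fun a => c - a))
        ((disp g n k).image (phi p (root p b))) := by
      rw [Finset.disjoint_left]
      intro a ha ha2
      rw [mem_image] at ha ha2
      obtain ⟨a1, ha1, rfl⟩ := ha
      rw [mem_image] at ha1
      obtain ⟨x, hx, rfl⟩ := ha1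
      rw [hX, mem_image] at hx
      obtain ⟨t, ht, rfl⟩ := hx
      obtain ⟨s, hs, hs2⟩ := ha2
      rw [disp, mem_image] at hs
      obtain ⟨i, hi, rfl⟩ := hs
      rw [mem_range] at hi
      have h2 : word g k n = word g k t := by rw [(hmem n hn).2, (hmem t ht).2]
      have h3 := disp_eq_of_word_eq h2 (t := i) (by omega)
      rw [h3, phi_sub] at hs2
      refine hc (t + i) (by have := (hmem t ht).1; omega) ?_
      linear_combination hs2
    have h2 : ((X.image (phi p (root p b))).image (fun a => c - a)).card =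
        (X.image (phi p (root p b))).card := by
      refine Finset.card_image_of_injective _ ?_
      intro a a' h
      simpa using h
    have h3 := Finset.card_union_of_disjoint h1
    have h4 := Finset.card_le_univ (((X.image (phi p (root p b))).image (fun a => c - a)) ∪
        ((disp g n k).image (phi p (root p b))))
    rw [ZMod.card, h3, h2] at h4
    have h5 : ((X.image (phi p (root p b))).card : ℝ) +
        ((disp g n k).image (phi p (root p b))).card ≤ (p : ℝ) := by exact_mod_cast h4
    linarith
  refine ⟨n, hnN, ?_, ?_⟩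
  · intro p hp hp4 hpN b
    have h1 := hdisj p hp hp4 hpN b
    have h2 : (0 : ℝ) < ((X.image (phi p (root p b))).card : ℝ) := by
      exact_mod_cast (hXne.image _).card_pos
    have h3 : (((disp g n k).image (phi p (root p b))).card : ℝ) < p := by linarith
    exact_mod_cast h3
  · have hQB1 : (1 : ℝ) ≤ (Q * B : ℕ) := by exact_mod_cast hQ.trans hQB
    have hM : 1 ≤ D * (Q * B : ℕ) := by nlinarith
    have hls := larger_sieve (primesMod 0 Q) (fun p hp => (mem_primesMod.1 hp).2) X hXne hM (by
      intro z hz w hw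
      rw [hX, mem_image] at hz hw
      obtain ⟨a, ha, rfl⟩ := hz
      obtain ⟨b, hb, rfl⟩ := hw
      have ha' := (hmem a ha).1
      have hb' := (hmem b hb).1
      have key : ∀ a b : ℕ, a ≤ b → b < Q * B →
          ((g b - g a).norm : ℝ) ≤ (D * (Q * B : ℕ)) ^ 2 := by
        intro a b hab hb
        refine (hstep a b hab (by omega)).trans ?_
        refine pow_le_pow_left₀ (by positivity) ?_ 2
        refine mul_le_mul_of_nonneg_left ?_ (by linarith)
        exact_mod_cast (show b - a ≤ Q * B by omega)
      rcases le_total a b with hab | hab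
      · rw [norm_sub_comm']
        exact key a b hab hb'
      · exact key b a hab ha')
    have hcardX : (Q : ℝ) ≤ X.card := by rw [hXcard]; exact_mod_cast hcard
    have hQpos : (0 : ℝ) < Q := by exact_mod_cast hQ
    have h4 : (∑ p ∈ primesMod 0 Q, 2 * Real.log p) / X.card ≤ 2 * Real.log 4 := by
      rw [div_le_iff₀ (lt_of_lt_of_le hQpos hcardX)]
      have h1 : ∑ p ∈ primesMod 0 Q, 2 * Real.log p ≤ 2 * (Real.log 4 * Q) := by
        rw [← Finset.mul_sum]
        have h3 := th_upper Q
        unfold th at h3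
        linarith
      have hl4 : 0 < Real.log 4 := Real.log_pos (by norm_num)
      nlinarith
    refine le_trans ?_ (hls.trans (add_le_add h4 le_rfl))
    refine Finset.sum_le_sum fun p hp => Finset.sum_le_sum fun b _ => ?_
    rw [mem_primesMod] at hp
    have hlp : 0 ≤ Real.log p := Real.log_natCast_nonneg _
    have h2 : (0 : ℝ) < ((X.image (phi p (root p b))).card : ℝ) := by
      exact_mod_cast (hXne.image _).card_pos
    exact div_le_div_of_nonneg_left hlp h2
      (hdisj p hp.2.1 hp.2.2 (hp.1.2.trans (hQB.trans (by omega))) b)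

/-- **M5 for infinite paths of `G_D`.** -/
theorem popular_path {D : ℝ} {γ : ℕ → {z : GaussianInt // Prime z}} (hγ : IsInfinitePath D γ)
    (n₀ k Q M : ℕ) (hQ : 1 ≤ Q) :
    ∃ n, n₀ ≤ n ∧
      (∀ i, (M : ℤ) ^ 2 < ((γ (n + i)).1).norm) ∧
      (∀ p : ℕ, p.Prime → p % 4 = 1 → p ≤ M → ∀ b : Bool,
        ((disp (fun n => (γ n).1) n k).image (phi p (root p b))).card < p) ∧
      ∑ p ∈ primesMod 0 Q, ∑ b : Bool,
        Real.log p / ((p : ℝ) -
          ((disp (fun n => (γ n).1) n k).image (phi p (root p b))).card) ≤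
        2 * Real.log 4 + 2 * Real.log (max D 1 *
          (Q * complexity (fun n => (γ n).1) n₀ k : ℕ)) := by
  set B := complexity (fun n => (γ n).1) n₀ k with hBdef
  have hB1 : 1 ≤ B := by
    rw [hBdef, complexity, Nat.one_le_iff_ne_zero]
    intro h
    rw [Set.ncard_eq_zero (finite_words hγ k n₀)] at h
    have : stepWord (fun n => (γ n).1) k n₀ ∈
        stepWord (fun n => (γ n).1) k '' Set.Ici n₀ := ⟨n₀, Set.mem_Ici.2 le_rfl, rfl⟩
    rw [h] at this
    exact this
  set N := max (Q * B + k) M with hNdef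
  obtain ⟨n₁, hn₁, hbig⟩ := finite_small D hγ N n₀
  have hstep : ∀ a b, a ≤ b → b ≤ N →
      (((γ (n₁ + b)).1 - (γ (n₁ + a)).1).norm : ℝ) ≤ (max D 1 * ((b - a : ℕ) : ℝ)) ^ 2 := by
    intro a b hab _
    have h1 := dist_path_le hγ (n₁ + a) (n₁ + b) (by omega)
    have e : n₁ + b - (n₁ + a) = b - a := by omega
    rw [e] at h1
    have h3 := h1.trans (mul_le_mul_of_nonneg_right (le_max_left D 1) (Nat.cast_nonneg (b - a)))
    rw [← dist_sq, dist_comm]
    exact pow_le_pow_left₀ dist_nonneg h3 2
  have hwords : ((range (N + 1 - k)).image (word (fun n => (γ (n₁ + n)).1) k)).card ≤ B := by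
    have h4 : (((range (N + 1 - k)).image (word (fun n => (γ (n₁ + n)).1) k) :
        Finset (Fin k → GaussianInt)) : Set (Fin k → GaussianInt)) ⊆
        stepWord (fun n => (γ n).1) k '' Set.Ici n₀ := by
      intro w hw
      rw [coe_image] at hw
      obtain ⟨n, -, rfl⟩ := hw
      refine ⟨n₁ + n, Set.mem_Ici.2 (by omega), ?_⟩
      funext i
      simp only [stepWord, word, ← add_assoc]
    have h5 := Set.ncard_le_ncard h4 (finite_words hγ k n₀)
    rw [Set.ncard_coe_finset] at h5
    exact h5
  obtain ⟨n, hn, h1, h2⟩ := popular (g := fun n => (γ (n₁ + n)).1) (N := N) (k := k) (Q := Q)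
    (B := B) (D := max D 1) (le_max_right _ _) hQ hB1 (by
      intro a _ b _ hab
      have h1 := hγ.1 (Subtype.ext hab)
      omega) (misses_of_prime fun n _ => ⟨(γ (n₁ + n)).2, hbig _ (by omega)⟩) hstep hwords
      (le_max_left _ _)
  have hdisp : disp (fun n => (γ (n₁ + n)).1) n k = disp (fun n => (γ n).1) (n₁ + n) k := by
    unfold disp
    simp only [add_assoc]
  rw [hdisp] at h1 h2
  refine ⟨n₁ + n, by omega, ?_, ?_, h2⟩
  · intro i
    have h3 := hbig (n₁ + n + i) (by omega)
    have h4 : (M : ℤ) ^ 2 ≤ (N : ℤ) ^ 2 := by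
      have : (M : ℤ) ≤ N := by exact_mod_cast le_max_right _ _
      exact pow_le_pow_left₀ (by positivity) this 2
    exact lt_of_le_of_lt h4 h3
  · intro p hp hp4 hpM b
    exact h1 p hp hp4 (hpM.trans (le_max_right _ _)) b

end Vale.Agent.P015.R2.H731
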